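import Vale.Agent.P231.ChW.Real
import Vale.Agent.P231.ChW.RankCF
import Vale.Agent.P231.X1.Smooth

/-!
# P231, stage 2, block X3 (part 1): matrices of smooth functions as matrices of 0-forms
-/

set_option linter.unusedSectionVars false
set_option linter.unusedVariables false

open Matrix Set Filter Topology MeasureTheory
open scoped ContDiff

namespace Vale.Agent.P231.X3

open Vale.Agent.P231.Fm Vale.Agent.P231.W Vale.Agent.P231.ChW

noncomputable section

variable {X Y : Type*} {D : Dif X} {D' : Dif Y}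

/-! ### smooth functions with values in a normed space or algebra -/

section Mod

variable {A B : Type*} [NormedAddCommGroup A] [NormedSpace ℝ A] [NormedAddCommGroup B]
  [NormedSpace ℝ B]

/-- smooth functions -/
structure SmF (D : Dif X) (f : X → A) : Prop where
  /-- the function is a smooth map -/
  mp : D.Map (Dif.lin A) f

theorem SmF.of {f : X → A} (h : ∀ {E : Type} [NormedAddCommGroup E] [NormedSpace ℝ E]
    [FiniteDimensional ℝ E] {u : E → X} {x : E}, D.At u x → Sm (fun s => f (u s)) x) :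
    SmF D f := ⟨fun hu => h hu⟩

theorem SmF.sm {f : X → A} (hf : SmF D f) {E : Type} [NormedAddCommGroup E] [NormedSpace ℝ E]
    [FiniteDimensional ℝ E] {u : E → X} {x : E} (h : D.At u x) : Sm (fun s => f (u s)) x :=
  hf.mp h

theorem SmF.add {f g : X → A} (hf : SmF D f) (hg : SmF D g) : SmF D (fun x => f x + g x) := by
  refine SmF.of ?_
  intro E _ _ _ u x h
  filter_upwards [hf.sm h, hg.sm h] with y h1 h2 using h1.add h2

theorem SmF.neg {f : X → A} (hf : SmF D f) : SmF D (fun x => -f x) := by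
  refine SmF.of ?_
  intro E _ _ _ u x h
  filter_upwards [hf.sm h] with y h1 using h1.neg

theorem SmF.sub {f g : X → A} (hf : SmF D f) (hg : SmF D g) : SmF D (fun x => f x - g x) := by
  refine SmF.of ?_
  intro E _ _ _ u x h
  filter_upwards [hf.sm h, hg.sm h] with y h1 h2 using h1.sub h2

theorem SmF.smul {c : X → ℝ} {f : X → A} (hc : SmF D c) (hf : SmF D f) :
    SmF D (fun x => c x • f x) := by
  refine SmF.of ?_
  intro E _ _ _ u x h
  filter_upwards [hc.sm h, hf.sm h] with y h1 h2 using h1.smul h2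

theorem SmF.const (D : Dif X) (a : A) : SmF D (fun _ => a) := by
  refine SmF.of ?_
  intro E _ _ _ u x h
  exact Sm.of_contDiff contDiff_const _

theorem SmF.sum {ι : Type*} (s : Finset ι) {f : ι → X → A} (hf : ∀ i ∈ s, SmF D (f i)) :
    SmF D (fun x => ∑ i ∈ s, f i x) := by
  classical
  induction s using Finset.induction_on with
  | empty => simpa using SmF.const D (0 : A)
  | insert i s hi ih =>
    simp only [Finset.sum_insert hi]
    exact (hf i (Finset.mem_insert_self _ _)).add
      (ih fun j hj => hf j (Finset.mem_insert_of_mem hj))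

theorem SmF.clm (L : A →L[ℝ] B) {f : X → A} (hf : SmF D f) : SmF D (fun x => L (f x)) := by
  refine SmF.of ?_
  intro E _ _ _ u x h
  filter_upwards [hf.sm h] with y h1 using L.contDiff.contDiffAt.comp y h1

theorem SmF.comp {f : Y → A} (hf : SmF D' f) {g : X → Y} (hg : D.Map D' g) :
    SmF D (fun x => f (g x)) := by
  refine SmF.of ?_
  intro E _ _ _ u x h
  exact hf.mp (hg h)

theorem SmF.congr {f g : X → A} (hf : SmF D f) (h : ∀ x, f x = g x) : SmF D g := by
  have : f = g := funext h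
  rwa [← this]

end Mod

section Alg

variable {A : Type*} [NormedCommRing A] [NormedAlgebra ℝ A]

theorem SmF.mul {f g : X → A} (hf : SmF D f) (hg : SmF D g) : SmF D (fun x => f x * g x) := by
  refine SmF.of ?_
  intro E _ _ _ u x h
  filter_upwards [hf.sm h, hg.sm h] with y h1 h2 using h1.mul h2

theorem SmF.prod {ι : Type*} (s : Finset ι) {f : ι → X → A} (hf : ∀ i ∈ s, SmF D (f i)) :
    SmF D (fun x => ∏ i ∈ s, f i x) := by
  classical
  induction s using Finset.induction_on with
  | empty => simpa using SmF.const D (1 : A)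
  | insert i s hi ih =>
    simp only [Finset.prod_insert hi]
    exact (hf i (Finset.mem_insert_self _ _)).mul
      (ih fun j hj => hf j (Finset.mem_insert_of_mem hj))

end Alg

theorem SmF.inv {K : Type*} [NormedField K] [NormedAlgebra ℝ K] {f : X → K} (hf : SmF D f)
    (h0 : ∀ x, f x ≠ 0) : SmF D (fun x => (f x)⁻¹) := by
  refine SmF.of ?_
  intro E _ _ _ u x h
  filter_upwards [hf.sm h] with y h1
  exact ContDiffAt.inv h1 (h0 _)

/-! ### matrices of smooth functions -/

section Mat

variable {A : Type*} [NormedCommRing A] [NormedAlgebra ℝ A]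
variable {l m n o : Type*} [Fintype l] [Fintype m] [Fintype n] [Fintype o]

/-- matrices of smooth functions -/
def SmM (D : Dif X) (a : X → Matrix m n A) : Prop := ∀ i j, SmF D (fun x => a x i j)

theorem SmM.mul {a : X → Matrix l m A} {b : X → Matrix m n A} (ha : SmM D a) (hb : SmM D b) :
    SmM D (fun x => a x * b x) := by
  intro i j
  simp only [Matrix.mul_apply]
  exact SmF.sum _ fun k _ => (ha i k).mul (hb k j)

theorem SmM.add {a b : X → Matrix m n A} (ha : SmM D a) (hb : SmM D b) :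
    SmM D (fun x => a x + b x) := fun i j => (ha i j).add (hb i j)

theorem SmM.sub {a b : X → Matrix m n A} (ha : SmM D a) (hb : SmM D b) :
    SmM D (fun x => a x - b x) := fun i j => (ha i j).sub (hb i j)

theorem SmM.neg {a : X → Matrix m n A} (ha : SmM D a) : SmM D (fun x => -a x) :=
  fun i j => (ha i j).neg

theorem SmM.const (D : Dif X) (a : Matrix m n A) : SmM D (fun _ => a) :=
  fun i j => SmF.const D _

theorem SmM.transpose {a : X → Matrix m n A} (ha : SmM D a) : SmM D (fun x => (a x)ᵀ) :=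
  fun i j => ha j i

theorem SmM.smul {c : X → ℝ} {a : X → Matrix m n A} (hc : SmF D c) (ha : SmM D a) :
    SmM D (fun x => c x • a x) := fun i j => SmF.smul hc (ha i j)

theorem SmM.const_smul (c : ℝ) {a : X → Matrix m n A} (ha : SmM D a) :
    SmM D (fun x => c • a x) := fun i j => SmF.smul (SmF.const D c) (ha i j)

theorem SmM.smul' {c : X → A} {a : X → Matrix m n A} (hc : SmF D c) (ha : SmM D a) :
    SmM D (fun x => c x • a x) := fun i j => SmF.mul hc (ha i j)

theorem SmM.comp {a : Y → Matrix m n A} (ha : SmM D' a) {g : X → Y} (hg : D.Map D' g) :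
    SmM D (fun x => a (g x)) := fun i j => (ha i j).comp hg

theorem SmM.congr {a b : X → Matrix m n A} (ha : SmM D a) (h : ∀ x, a x = b x) : SmM D b := by
  have : a = b := funext h
  rwa [← this]

theorem SmM.map {B : Type*} [NormedCommRing B] [NormedAlgebra ℝ B] (L : A →L[ℝ] B)
    {a : X → Matrix m n A} (ha : SmM D a) : SmM D (fun x => (a x).map L) :=
  fun i j => (ha i j).clm L

theorem SmM.kr {a : X → Matrix l m A} {b : X → Matrix n o A} (ha : SmM D a) (hb : SmM D b) :
    SmM D (fun x => ChW.kr (a x) (b x)) := fun i j => (ha i.1 j.1).mul (hb i.2 j.2)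

theorem SmM.trace {a : X → Matrix n n A} (ha : SmM D a) : SmF D (fun x => Matrix.trace (a x)) := by
  simp only [Matrix.trace]
  exact SmF.sum _ fun i _ => ha i i

variable [DecidableEq n] [DecidableEq m]

theorem SmM.det {a : X → Matrix n n A} (ha : SmM D a) : SmF D (fun x => (a x).det) := by
  simp only [Matrix.det_apply]
  refine SmF.sum _ fun σ _ => ?_
  have h1 : SmF D (fun x => ∏ i, a x (σ i) i) := SmF.prod _ fun i _ => ha _ _
  rcases Int.units_eq_one_or (Equiv.Perm.sign σ) with h | h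
  · rw [h]
    simpa using h1
  · rw [h]
    simpa using h1.neg

theorem SmM.adjugate {a : X → Matrix n n A} (ha : SmM D a) : SmM D (fun x => (a x).adjugate) := by
  intro i j
  simp only [Matrix.adjugate_apply]
  refine SmM.det ?_
  intro k l
  by_cases hk : k = j
  · subst hk
    simp only [Matrix.updateRow_self]
    exact SmF.const D _
  · simp only [Matrix.updateRow_ne hk]
    exact ha k l

end Mat

section Inv

variable {K : Type*} [NormedField K] [NormedAlgebra ℝ K]
variable {n m : Type*} [Fintype n] [DecidableEq n] [Fintype m] [DecidableEq m]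

theorem SmM.inv {a : X → Matrix n n K} (ha : SmM D a) (h0 : ∀ x, IsUnit (a x)) :
    SmM D (fun x => (a x)⁻¹) := by
  have h1 : ∀ x, (a x).det ≠ 0 := fun x => ((Matrix.isUnit_iff_isUnit_det _).1 (h0 x)).ne_zero
  refine SmM.congr (SmM.smul' (ha.det.inv h1) ha.adjugate) fun x => ?_
  rw [Matrix.inv_def, Ring.inverse_eq_inv']

end Inv

/-! ### real and complex scalars -/

theorem SmF.re {f : X → ℂ} (hf : SmF D f) : SmF D (fun x => (f x).re) := hf.clm Complex.reCLM

theorem SmF.im {f : X → ℂ} (hf : SmF D f) : SmF D (fun x => (f x).im) := hf.clm Complex.imCLM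

theorem SmF.ofReal {f : X → ℝ} (hf : SmF D f) : SmF D (fun x => (f x : ℂ)) :=
  hf.clm Complex.ofRealCLM

theorem SmF.conj {f : X → ℂ} (hf : SmF D f) : SmF D (fun x => (starRingEnd ℂ) (f x)) :=
  hf.clm (Complex.conjCLE : ℂ →L[ℝ] ℂ)

section CM

variable {l m n o : Type*} [Fintype l] [Fintype m] [Fintype n] [Fintype o]

theorem SmM.conj {a : X → Matrix m n ℂ} (ha : SmM D a) :
    SmM D (fun x => (a x).map (starRingEnd ℂ)) := fun i j => (ha i j).conj

theorem SmM.ofReal {a : X → Matrix m n ℝ} (ha : SmM D a) :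
    SmM D (fun x => (a x).map (fun r : ℝ => (r : ℂ))) := fun i j => (ha i j).ofReal

/-- a smooth real function as a 0-form -/
def fr (f : X → ℝ) (hf : SmF D f) : Form D := Form.fn f hf.mp

theorem fr_val {E : Type} [NormedAddCommGroup E] [NormedSpace ℝ E] [FiniteDimensional ℝ E]
    (f : X → ℝ) (hf : SmF D f) {u : E → X} {x : E} (h : D.At u x) :
    (fr f hf).val u x = algebraMap ℝ (Lam E) (f (u x)) := Form.fn_val f hf.mp h

/-- a smooth complex function as a complex 0-form -/
def cf (f : X → ℂ) (hf : SmF D f) : CF D := ⟨fr (fun x => (f x).re) hf.re, fr (fun x => (f x).im) hf.im⟩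

@[simp] theorem cf_re (f : X → ℂ) (hf : SmF D f) :
    (cf f hf).re = fr (fun x => (f x).re) hf.re := rfl

@[simp] theorem cf_im (f : X → ℂ) (hf : SmF D f) :
    (cf f hf).im = fr (fun x => (f x).im) hf.im := rfl

theorem fr_congr {f g : X → ℝ} (hf : SmF D f) (hg : SmF D g)
    (h : ∀ x, f x = g x) : fr f hf = fr g hg := by
  have : f = g := funext h
  subst this
  rfl

theorem fr_add {f g : X → ℝ} (hf : SmF D f) (hg : SmF D g) :
    fr (fun x => f x + g x) (hf.add hg) = fr f hf + fr g hg :=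
  Form.ext_val fun E _ _ _ u x h => by
    rw [Form.add_val, fr_val _ _ h, fr_val _ _ h, fr_val _ _ h, map_add]

theorem fr_sub {f g : X → ℝ} (hf : SmF D f) (hg : SmF D g) :
    fr (fun x => f x - g x) (hf.sub hg) = fr f hf - fr g hg :=
  Form.ext_val fun E _ _ _ u x h => by
    rw [Form.sub_val, fr_val _ _ h, fr_val _ _ h, fr_val _ _ h, map_sub]

theorem fr_neg {f : X → ℝ} (hf : SmF D f) : fr (fun x => -f x) hf.neg = -fr f hf :=
  Form.ext_val fun E _ _ _ u x h => by
    rw [Form.neg_val, fr_val _ _ h, fr_val _ _ h, map_neg]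

theorem fr_mul {f g : X → ℝ} (hf : SmF D f) (hg : SmF D g) :
    fr (fun x => f x * g x) (hf.mul hg) = fr f hf * fr g hg :=
  Form.ext_val fun E _ _ _ u x h => by
    rw [Form.mul_val, fr_val _ _ h, fr_val _ _ h, fr_val _ _ h, map_mul]

theorem fr_const (c : ℝ) : fr (D := D) (fun _ => c) (SmF.const D c) = algebraMap ℝ (Form D) c :=
  Form.ext_val fun E _ _ _ u x h => by
    rw [fr_val _ _ h, algebraMap_val _ h]

theorem fr_zero : fr (D := D) (fun _ => (0:ℝ)) (SmF.const D 0) = 0 := by
  rw [fr_const, map_zero]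

theorem fr_one : fr (D := D) (fun _ => (1:ℝ)) (SmF.const D 1) = 1 := by
  rw [fr_const, map_one]

theorem sg_fr {f : X → ℝ} (hf : SmF D f) : (fr f hf).sg = fr f hf := Form.sg_fn f hf.mp

theorem pull_fr {f : Y → ℝ} (hf : SmF D' f) {g : X → Y} (hg : D.Map D' g) :
    Form.pull g hg (fr f hf) = fr (fun x => f (g x)) (hf.comp hg) :=
  Form.ext_val fun E _ _ _ u x h => by
    rw [Form.pull_val _ _ h, fr_val _ _ (hg h), fr_val _ _ h]
    rfl

theorem cf_congr {f g : X → ℂ} (hf : SmF D f) (hg : SmF D g) (h : ∀ x, f x = g x) :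
    cf f hf = cf g hg := by
  have : f = g := funext h
  subst this
  rfl

theorem cf_add {f g : X → ℂ} (hf : SmF D f) (hg : SmF D g) :
    cf (fun x => f x + g x) (hf.add hg) = cf f hf + cf g hg := by
  ext1
  · exact fr_add hf.re hg.re
  · exact fr_add hf.im hg.im

theorem cf_sub {f g : X → ℂ} (hf : SmF D f) (hg : SmF D g) :
    cf (fun x => f x - g x) (hf.sub hg) = cf f hf - cf g hg := by
  ext1
  · exact fr_sub hf.re hg.re
  · exact fr_sub hf.im hg.im

theorem cf_neg {f : X → ℂ} (hf : SmF D f) : cf (fun x => -f x) hf.neg = -cf f hf := by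
  ext1
  · exact fr_neg hf.re
  · exact fr_neg hf.im

theorem cf_mul {f g : X → ℂ} (hf : SmF D f) (hg : SmF D g) :
    cf (fun x => f x * g x) (hf.mul hg) = cf f hf * cf g hg := by
  ext1
  · rw [Cx.mul_re, cf_re, cf_re, cf_re, cf_im, cf_im, ← fr_mul, ← fr_mul, ← fr_sub]
    exact fr_congr _ _ fun x => Complex.mul_re _ _
  · rw [Cx.mul_im, cf_re, cf_re, cf_im, cf_im, cf_im, ← fr_mul, ← fr_mul, ← fr_add]
    exact fr_congr _ _ fun x => Complex.mul_im _ _

theorem cf_const (c : ℂ) : cf (D := D) (fun _ => c) (SmF.const D c) =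
    ⟨algebraMap ℝ (Form D) c.re, algebraMap ℝ (Form D) c.im⟩ := by
  ext1
  · exact fr_const c.re
  · exact fr_const c.im

theorem cf_zero : cf (D := D) (fun _ => 0) (SmF.const D 0) = 0 := by
  rw [cf_const]
  ext1
  · exact map_zero _
  · exact map_zero _

theorem cf_one : cf (D := D) (fun _ => 1) (SmF.const D 1) = 1 := by
  rw [cf_const]
  ext1
  · exact map_one _
  · exact map_zero _

theorem cf_sum {ι : Type*} (s : Finset ι) {f : ι → X → ℂ} (hf : ∀ i, SmF D (f i)) :
    cf (fun x => ∑ i ∈ s, f i x) (SmF.sum s fun i _ => hf i) = ∑ i ∈ s, cf (f i) (hf i) := by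
  classical
  induction s using Finset.induction_on with
  | empty =>
    rw [Finset.sum_empty, ← cf_zero]
    exact cf_congr _ _ fun x => Finset.sum_empty
  | insert i s hi ih =>
    rw [Finset.sum_insert hi, ← ih, ← cf_add]
    exact cf_congr _ _ fun x => Finset.sum_insert hi

theorem cf_conj {f : X → ℂ} (hf : SmF D f) :
    cf (fun x => (starRingEnd ℂ) (f x)) hf.conj = Cx.conj (cf f hf) := by
  ext1
  · exact fr_congr hf.conj.re hf.re fun x => Complex.conj_re _
  · rw [Cx.conj_im, cf_im, cf_im, ← fr_neg]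
    exact fr_congr _ _ fun x => Complex.conj_im _

theorem cf_ofReal {f : X → ℝ} (hf : SmF D f) :
    cf (fun x => (f x : ℂ)) hf.ofReal = Cx.of (fr f hf) := by
  ext1
  · exact fr_congr hf.ofReal.re hf fun x => Complex.ofReal_re _
  · rw [Cx.of_im, cf_im]
    refine Eq.trans ?_ fr_zero
    exact fr_congr _ _ fun x => Complex.ofReal_im _

theorem sg_cf {f : X → ℂ} (hf : SmF D f) : GDA.sg (cf f hf) = cf f hf := by
  ext1
  · exact sg_fr hf.re
  · exact sg_fr hf.im

theorem pullC_cf {f : Y → ℂ} (hf : SmF D' f) {g : X → Y} (hg : D.Map D' g) :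
    pullC g hg (cf f hf) = cf (fun x => f (g x)) (hf.comp hg) := by
  ext1
  · exact pull_fr hf.re hg
  · exact pull_fr hf.im hg

/-! ### matrices -/

/-- a matrix of smooth complex functions as a matrix of complex 0-forms -/
def cM (a : X → Matrix m n ℂ) (ha : SmM D a) : Matrix m n (CF D) :=
  fun i j => cf (fun x => a x i j) (ha i j)

theorem cM_apply (a : X → Matrix m n ℂ) (ha : SmM D a) (i : m) (j : n) :
    cM a ha i j = cf (fun x => a x i j) (ha i j) := rfl

theorem cM_congr {a b : X → Matrix m n ℂ} (ha : SmM D a) (hb : SmM D b) (h : ∀ x, a x = b x) :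
    cM a ha = cM b hb := by
  have : a = b := funext h
  subst this
  rfl

theorem cM_mul {a : X → Matrix l m ℂ} {b : X → Matrix m n ℂ} (ha : SmM D a) (hb : SmM D b) :
    cM a ha * cM b hb = cM (fun x => a x * b x) (ha.mul hb) := by
  ext1 i j
  rw [Matrix.mul_apply, cM_apply]
  simp only [cM_apply]
  rw [show (∑ k, cf (fun x => a x i k) (ha i k) * cf (fun x => b x k j) (hb k j)) =
      ∑ k, cf (fun x => a x i k * b x k j) ((ha i k).mul (hb k j)) from
    Finset.sum_congr rfl fun k _ => (cf_mul _ _).symm, ← cf_sum]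
  exact cf_congr _ _ fun x => (Matrix.mul_apply).symm

theorem cM_add {a b : X → Matrix m n ℂ} (ha : SmM D a) (hb : SmM D b) :
    cM a ha + cM b hb = cM (fun x => a x + b x) (ha.add hb) := by
  ext1 i j
  exact (cf_add _ _).symm

theorem cM_sub {a b : X → Matrix m n ℂ} (ha : SmM D a) (hb : SmM D b) :
    cM a ha - cM b hb = cM (fun x => a x - b x) (ha.sub hb) := by
  ext1 i j
  exact (cf_sub _ _).symm

theorem cM_zero : cM (D := D) (fun _ => (0 : Matrix m n ℂ)) (SmM.const D 0) = 0 := by
  ext1 i j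
  exact cf_zero

theorem cM_eq_zero {a : X → Matrix m n ℂ} (ha : SmM D a) (h : ∀ x, a x = 0) : cM a ha = 0 := by
  rw [← cM_zero]
  exact cM_congr _ _ h

theorem cj_cM {a : X → Matrix m n ℂ} (ha : SmM D a) :
    cj (cM a ha) = cM (fun x => (a x).map (starRingEnd ℂ)) ha.conj := by
  ext1 i j
  exact (cf_conj _).symm

theorem cM_transpose {a : X → Matrix m n ℂ} (ha : SmM D a) :
    (cM a ha)ᵀ = cM (fun x => (a x)ᵀ) ha.transpose := rfl

theorem kr_cM {a : X → Matrix l m ℂ} {b : X → Matrix n o ℂ} (ha : SmM D a) (hb : SmM D b) :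
    kr (cM a ha) (cM b hb) = cM (fun x => kr (a x) (b x)) (ha.kr hb) := by
  ext1 i j
  exact (cf_mul _ _).symm

theorem trace_cM {a : X → Matrix n n ℂ} (ha : SmM D a) :
    trace (cM a ha) = cf (fun x => trace (a x)) ha.trace := by
  rw [trace]
  simp only [Matrix.diag, cM_apply]
  rw [← cf_sum]
  rfl

/-- a matrix of smooth real functions as a matrix of 0-forms -/
def rM (a : X → Matrix m n ℝ) (ha : SmM D a) : Matrix m n (Form D) :=
  fun i j => fr (fun x => a x i j) (ha i j)

theorem rM_map_of {a : X → Matrix m n ℝ} (ha : SmM D a) :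
    (rM a ha).map Cx.of = cM (fun x => (a x).map (fun r : ℝ => (r : ℂ))) ha.ofReal := by
  ext1 i j
  exact (cf_ofReal (ha i j)).symm

theorem ev_cM {a : X → Matrix m n ℂ} (ha : SmM D a) : Ev (cM a ha) := by
  unfold Ev
  ext1 i j
  exact sg_cf _

variable [DecidableEq m] [DecidableEq n]

theorem idem_cM {a : X → Matrix n n ℂ} (ha : SmM D a) (h : ∀ x, a x * a x = a x) :
    Idem (cM a ha) := ⟨ev_cM ha, by rw [cM_mul]; exact cM_congr _ _ h⟩

theorem map_pullC_cM {a : Y → Matrix m n ℂ} (ha : SmM D' a) {g : X → Y} (hg : D.Map D' g) :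
    (cM a ha).map (pullC g hg) = cM (fun x => a (g x)) (ha.comp hg) := by
  ext1 i j
  exact pullC_cf _ hg

theorem basicM_cM {Φ : X × ℝ → X} {hΦ : (D.prod (Dif.lin ℝ)).Map D Φ} {a : X → Matrix m n ℂ}
    (ha : SmM D a) (h : ∀ x t, a (Φ (x, t)) = a x) : BasicM Φ hΦ (cM a ha) := by
  unfold BasicM
  rw [map_pullC_cM ha hΦ, prC, map_pullC_cM ha Dif.map_fst]
  exact cM_congr _ _ fun p => h p.1 p.2

/-- pointwise isomorphisms of idempotents -/
theorem isoData_cM {p : X → Matrix n n ℂ} {q : X → Matrix m m ℂ} {a : X → Matrix m n ℂ}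
    {b : X → Matrix n m ℂ} (hp : SmM D p) (hq : SmM D q) (ha : SmM D a) (hb : SmM D b)
    (h1 : ∀ x, a x * b x = q x) (h2 : ∀ x, b x * a x = p x) (h3 : ∀ x, a x * p x = a x)
    (h4 : ∀ x, q x * a x = a x) (h5 : ∀ x, b x * q x = b x) (h6 : ∀ x, p x * b x = b x) :
    IsoData (cM p hp) (cM q hq) (cM a ha) (cM b hb) := by
  refine ⟨ev_cM _, ev_cM _, ev_cM _, ev_cM _, ?_, ?_, ?_, ?_, ?_, ?_⟩
  · rw [cM_mul]; exact cM_congr _ _ h1
  · rw [cM_mul]; exact cM_congr _ _ h2
  · rw [cM_mul]; exact cM_congr _ _ h3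
  · rw [cM_mul]; exact cM_congr _ _ h4
  · rw [cM_mul]; exact cM_congr _ _ h5
  · rw [cM_mul]; exact cM_congr _ _ h6

theorem rankLE_cM {a : X → Matrix n n ℂ} (ha : SmM D a) (h : ∀ x, a x * a x = a x) {r : ℕ}
    (hr : ∀ x, (a x).rank ≤ r) : RankLE r (cM a ha) a where
  idem := h
  rank := hr
  re hu i j := fr_val _ (ha i j).re hu
  im hu i j := fr_val _ (ha i j).im hu

end CM

/-! ### integrals over `[0, π]` -/

theorem SmF.integral_pi {f : X × ℝ → ℝ} (hf : SmF (D.prod (Dif.lin ℝ)) f) :
    SmF D (fun x => ∫ t in (0:ℝ)..Real.pi, f (x, t)) := by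
  refine SmF.of ?_
  intro E _ _ _ u x h
  obtain ⟨U, hU1, hU2, hU3⟩ := eventually_nhds_iff.1 (D.open' h)
  have h1 : ContDiffOn ℝ ∞ (fun q : E × ℝ => f (u q.1, q.2)) (U ×ˢ univ) := by
    intro q hq
    have h2 := hf.sm (Form.cyl_at (hU1 q.1 hq.1) q.2)
    exact h2.contDiffAt.contDiffWithinAt
  have h3 := X1.contDiffOn_integral_pi hU2 h1
  exact Sm.of_contDiffOn h3 hU2 hU3

theorem SmM.integral_pi {m n : Type*} [Fintype m] [Fintype n] {a : X × ℝ → Matrix m n ℝ}
    (ha : SmM (D.prod (Dif.lin ℝ)) a) :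
    SmM D (fun x => Matrix.of fun i j => ∫ t in (0:ℝ)..Real.pi, a (x, t) i j) :=
  fun i j => (ha i j).integral_pi

end

end Vale.Agent.P231.X3
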