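import Vale.Agent.P231.X3.Corner
import Vale.Agent.P231.X3.SF

/-!
# P231, stage 2, block X3 (part 5): the complex idempotents `W`, `Xo`, the line `L` and the
isomorphism `Xo ≅ L ⊗ W`, pointwise
-/

set_option linter.unusedSectionVars false
set_option linter.unusedVariables false

open Set Matrix
open scoped Real

namespace Vale.Agent.P231.X3

open Vale.Agent.P231.ChW

noncomputable section

variable {l m n : Type*} [Fintype l] [Fintype m] [Fintype n] [DecidableEq n]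

/-! ### complexification of matrices -/

/-- a real matrix as a complex matrix -/
def cplx (A : Matrix m n ℝ) : Matrix m n ℂ := A.map (fun r : ℝ => (r : ℂ))

@[simp] theorem cplx_apply (A : Matrix m n ℝ) (i : m) (j : n) : cplx A i j = (A i j : ℂ) := rfl

theorem cplx_mul (A : Matrix l m ℝ) (B : Matrix m n ℝ) : cplx (A * B) = cplx A * cplx B := by
  ext i j
  simp [Matrix.mul_apply]

theorem cplx_add (A B : Matrix m n ℝ) : cplx (A + B) = cplx A + cplx B := by
  ext i j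
  simp

theorem cplx_sub (A B : Matrix m n ℝ) : cplx (A - B) = cplx A - cplx B := by
  ext i j
  simp

theorem cplx_neg (A : Matrix m n ℝ) : cplx (-A) = -cplx A := by
  ext i j
  simp

theorem cplx_smul (c : ℝ) (A : Matrix m n ℝ) : cplx (c • A) = (c : ℂ) • cplx A := by
  ext i j
  simp

theorem cplx_transpose (A : Matrix m n ℝ) : (cplx A)ᵀ = cplx Aᵀ := rfl

theorem cplx_trace (A : Matrix n n ℝ) : trace (cplx A) = ((trace A : ℝ) : ℂ) := by
  simp [Matrix.trace]

theorem cplx_conj (A : Matrix m n ℝ) : (cplx A).map (starRingEnd ℂ) = cplx A := by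
  ext i j
  simp

/-! ### the eigenprojections -/

/-- the projection to the `i`-eigenspace of a complex structure on the corner of `N` -/
def eig (N J : Matrix n n ℝ) : Matrix n n ℂ := (1 / 2 : ℂ) • (cplx N - Complex.I • cplx J)

/-- `J` is a complex structure on the corner of `N` -/
structure CS (N J : Matrix n n ℝ) : Prop where
  i : N * N = N
  l : N * J = J
  r : J * N = J
  sq : J * J = -N

theorem Cor.cs2 {N1 N2 B0 B1 : Matrix n n ℝ} {g : ℝ → Matrix n n ℝ} (h : Cor N1 N2 B0 B1 g) :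
    CS N1 (J2m N1 N2 B0 B1) := ⟨h.i1, h.lJ2, h.rJ2, h.J2_sq⟩

theorem Cor.cs1 {N1 N2 B0 B1 : Matrix n n ℝ} {g : ℝ → Matrix n n ℝ} (h : Cor N1 N2 B0 B1 g) :
    CS N2 (J1m N1 N2 B0 B1) := ⟨h.i2, h.lJ1, h.rJ1, h.J1_sq⟩

namespace CS

variable {N J : Matrix n n ℝ}

theorem ci (h : CS N J) : cplx N * cplx N = cplx N := by rw [← cplx_mul, h.i]
theorem cl (h : CS N J) : cplx N * cplx J = cplx J := by rw [← cplx_mul, h.l]
theorem crr (h : CS N J) : cplx J * cplx N = cplx J := by rw [← cplx_mul, h.r]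
theorem csq (h : CS N J) : cplx J * cplx J = -cplx N := by rw [← cplx_mul, h.sq, cplx_neg]

theorem J_eig (h : CS N J) : cplx J * eig N J = Complex.I • eig N J := by
  rw [eig, Matrix.mul_smul, Matrix.mul_sub, Matrix.mul_smul, h.crr, h.csq]
  rw [smul_comm Complex.I (1 / 2 : ℂ), smul_sub Complex.I, smul_smul Complex.I Complex.I,
    Complex.I_mul_I]
  congr 1
  rw [smul_neg, neg_one_smul]
  abel

theorem eig_J (h : CS N J) : eig N J * cplx J = Complex.I • eig N J := by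
  rw [eig, Matrix.smul_mul, Matrix.sub_mul, Matrix.smul_mul, h.cl, h.csq]
  rw [smul_comm Complex.I (1 / 2 : ℂ), smul_sub Complex.I, smul_smul Complex.I Complex.I,
    Complex.I_mul_I]
  congr 1
  rw [smul_neg, neg_one_smul]
  abel

theorem N_eig (h : CS N J) : cplx N * eig N J = eig N J := by
  rw [eig, Matrix.mul_smul, Matrix.mul_sub, Matrix.mul_smul, h.ci, h.cl]

theorem eig_N (h : CS N J) : eig N J * cplx N = eig N J := by
  rw [eig, Matrix.smul_mul, Matrix.sub_mul, Matrix.smul_mul, h.ci, h.crr]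

theorem eig_eig (h : CS N J) : eig N J * eig N J = eig N J := by
  conv_lhs =>
    arg 1
    rw [eig]
  rw [Matrix.smul_mul, Matrix.sub_mul, Matrix.smul_mul, h.N_eig, h.J_eig, smul_smul,
    Complex.I_mul_I, neg_one_smul, sub_neg_eq_add, ← two_smul ℂ (eig N J), smul_smul]
  norm_num

theorem conj_eig (N J : Matrix n n ℝ) :
    (eig N J).map (starRingEnd ℂ) = (1 / 2 : ℂ) • (cplx N + Complex.I • cplx J) := by
  ext i j
  simp only [eig, Matrix.map_apply, Matrix.smul_apply, Matrix.sub_apply, Matrix.add_apply,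
    cplx_apply, smul_eq_mul, map_mul, map_sub, Complex.conj_ofReal, Complex.conj_I, map_div₀,
    map_one, map_ofNat]
  ring

theorem eig_add (h : CS N J) : eig N J + (eig N J).map (starRingEnd ℂ) = cplx N := by
  rw [conj_eig, eig, ← smul_add, sub_add_add_cancel, ← two_smul ℂ (cplx N), smul_smul]
  norm_num

theorem eig_conj (h : CS N J) : eig N J * (eig N J).map (starRingEnd ℂ) = 0 := by
  rw [conj_eig, Matrix.mul_smul, Matrix.mul_add, Matrix.mul_smul, h.eig_N, h.eig_J, smul_smul,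
    Complex.I_mul_I, neg_one_smul, add_neg_cancel, smul_zero]

theorem conj_mul (A B : Matrix n n ℂ) : (A * B).map (starRingEnd ℂ) =
    A.map (starRingEnd ℂ) * B.map (starRingEnd ℂ) := by
  ext i j
  simp [Matrix.mul_apply]

theorem conj_conj (A : Matrix n n ℂ) :
    (A.map (starRingEnd ℂ)).map (starRingEnd ℂ) = A := by
  ext i j
  simp

theorem conj_eig_mul (h : CS N J) : (eig N J).map (starRingEnd ℂ) * eig N J = 0 := by
  have h1 := congrArg (fun A : Matrix n n ℂ => A.map (starRingEnd ℂ)) h.eig_conj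
  simp only [conj_mul, conj_conj] at h1
  rw [h1]
  ext i j
  simp

/-- the trace of the eigenprojection -/
theorem trace_eig (h : CS N J) : (trace (eig N J)).re = trace N / 2 := by
  have h1 := congrArg trace h.eig_add
  rw [trace_add, cplx_trace] at h1
  have h2 : trace ((eig N J).map (starRingEnd ℂ)) = (starRingEnd ℂ) (trace (eig N J)) := by
    simp [Matrix.trace]
  rw [h2, Complex.add_conj] at h1
  have h3 : 2 * (trace (eig N J)).re = trace N := by exact_mod_cast h1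
  linarith

end CS

/-! ### the twisted isomorphism -/

namespace Cor

variable {N1 N2 B0 B1 : Matrix n n ℝ} {g : ℝ → Matrix n n ℝ}

/-- the idempotent `W` -/
def Wm (N1 N2 B0 B1 : Matrix n n ℝ) : Matrix n n ℂ := eig N1 (J2m N1 N2 B0 B1)

/-- the idempotent `Xo` -/
def Xm (N1 N2 B0 B1 : Matrix n n ℝ) : Matrix n n ℂ := eig N2 (J1m N1 N2 B0 B1)

/-- the map `W → Xo` -/
def tau (N1 N2 B0 B1 : Matrix n n ℝ) : Matrix n n ℂ := cplx (Tm N1 N2 B0 B1) * Wm N1 N2 B0 B1

/-- the map `Xo → W` -/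
def sig (N1 N2 B0 B1 : Matrix n n ℝ) : Matrix n n ℂ := cplx (Sm' N1 N2 B0 B1) * Xm N1 N2 B0 B1

theorem S_J1 (h : Cor N1 N2 B0 B1 g) :
    Sm' N1 N2 B0 B1 * J1m N1 N2 B0 B1 = J2m N1 N2 B0 B1 * Sm' N1 N2 B0 B1 := by
  calc Sm' N1 N2 B0 B1 * J1m N1 N2 B0 B1
      = Sm' N1 N2 B0 B1 * (J1m N1 N2 B0 B1 * (Tm N1 N2 B0 B1 * Sm' N1 N2 B0 B1)) := by
        rw [h.TS, h.rJ1]
    _ = (Sm' N1 N2 B0 B1 * Tm N1 N2 B0 B1) * J2m N1 N2 B0 B1 * Sm' N1 N2 B0 B1 := by
        rw [← Matrix.mul_assoc (J1m N1 N2 B0 B1), ← h.T_J2]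
        simp only [Matrix.mul_assoc]
    _ = _ := by rw [h.ST, h.lJ2]

theorem tau_eq (h : Cor N1 N2 B0 B1 g) :
    tau N1 N2 B0 B1 = Xm N1 N2 B0 B1 * cplx (Tm N1 N2 B0 B1) := by
  rw [tau, Wm, Xm, eig, eig, Matrix.mul_smul, Matrix.smul_mul, Matrix.mul_sub, Matrix.sub_mul,
    Matrix.mul_smul, Matrix.smul_mul, ← cplx_mul, ← cplx_mul, ← cplx_mul, ← cplx_mul, h.rT, h.lT,
    h.T_J2]

theorem sig_eq (h : Cor N1 N2 B0 B1 g) :
    sig N1 N2 B0 B1 = Wm N1 N2 B0 B1 * cplx (Sm' N1 N2 B0 B1) := by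
  rw [sig, Wm, Xm, eig, eig, Matrix.mul_smul, Matrix.smul_mul, Matrix.mul_sub, Matrix.sub_mul,
    Matrix.mul_smul, Matrix.smul_mul, ← cplx_mul, ← cplx_mul, ← cplx_mul, ← cplx_mul, h.rS, h.lS,
    h.S_J1]

theorem tau_sig (h : Cor N1 N2 B0 B1 g) :
    tau N1 N2 B0 B1 * sig N1 N2 B0 B1 = Xm N1 N2 B0 B1 := by
  rw [h.tau_eq, sig, Matrix.mul_assoc, ← Matrix.mul_assoc (cplx _), ← cplx_mul, h.TS, Xm,
    h.cs1.N_eig, h.cs1.eig_eig]

theorem sig_tau (h : Cor N1 N2 B0 B1 g) :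
    sig N1 N2 B0 B1 * tau N1 N2 B0 B1 = Wm N1 N2 B0 B1 := by
  rw [h.sig_eq, tau, Matrix.mul_assoc, ← Matrix.mul_assoc (cplx _), ← cplx_mul, h.ST, Wm,
    h.cs2.N_eig, h.cs2.eig_eig]

theorem tau_W (h : Cor N1 N2 B0 B1 g) :
    tau N1 N2 B0 B1 * Wm N1 N2 B0 B1 = tau N1 N2 B0 B1 := by
  rw [tau, Matrix.mul_assoc, Wm, h.cs2.eig_eig]

theorem X_tau (h : Cor N1 N2 B0 B1 g) :
    Xm N1 N2 B0 B1 * tau N1 N2 B0 B1 = tau N1 N2 B0 B1 := by
  rw [h.tau_eq, ← Matrix.mul_assoc, Xm, h.cs1.eig_eig]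

theorem sig_X (h : Cor N1 N2 B0 B1 g) :
    sig N1 N2 B0 B1 * Xm N1 N2 B0 B1 = sig N1 N2 B0 B1 := by
  rw [sig, Matrix.mul_assoc, Xm, h.cs1.eig_eig]

theorem W_sig (h : Cor N1 N2 B0 B1 g) :
    Wm N1 N2 B0 B1 * sig N1 N2 B0 B1 = sig N1 N2 B0 B1 := by
  rw [h.sig_eq, ← Matrix.mul_assoc, Wm, h.cs2.eig_eig]

theorem W_rot (h : Cor N1 N2 B0 B1 g) (s : ℝ) :
    Wm N1 N2 (Bm B0 B1 s) (Bm' B0 B1 s) = Wm N1 N2 B0 B1 := by
  rw [Wm, Wm, h.J2_rot]

theorem X_rot (h : Cor N1 N2 B0 B1 g) (s : ℝ) :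
    Xm N1 N2 (Bm B0 B1 s) (Bm' B0 B1 s) = Xm N1 N2 B0 B1 := by
  rw [Xm, Xm, h.J1_rot]

/-- the phase `e^{is}` -/
def ph (s : ℝ) : ℂ := Real.cos s + Real.sin s * Complex.I

theorem tau_rot (h : Cor N1 N2 B0 B1 g) (s : ℝ) :
    tau N1 N2 (Bm B0 B1 s) (Bm' B0 B1 s) = ph s • tau N1 N2 B0 B1 := by
  rw [tau, h.W_rot, h.T_rot, cplx_mul, cplx_add, cplx_smul, cplx_smul, Matrix.mul_assoc,
    Matrix.add_mul, Matrix.smul_mul, Matrix.smul_mul, Wm, h.cs2.N_eig, h.cs2.J_eig, smul_smul,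
    ← add_smul, Matrix.mul_smul, tau, Wm]
  rfl

theorem sig_rot (h : Cor N1 N2 B0 B1 g) (s : ℝ) :
    sig N1 N2 (Bm B0 B1 s) (Bm' B0 B1 s) = (starRingEnd ℂ) (ph s) • sig N1 N2 B0 B1 := by
  rw [sig, h.X_rot, h.S_rot, cplx_mul, cplx_sub, cplx_smul, cplx_smul, Matrix.mul_assoc,
    Matrix.sub_mul, Matrix.smul_mul, Matrix.smul_mul]
  have h1 : cplx (Sm' N1 N2 B0 B1) * Xm N1 N2 B0 B1 = sig N1 N2 B0 B1 := rfl
  have h2 : cplx N1 * sig N1 N2 B0 B1 = sig N1 N2 B0 B1 := by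
    rw [h.sig_eq, ← Matrix.mul_assoc, Wm, h.cs2.N_eig]
  have h3 : cplx (J2m N1 N2 B0 B1) * sig N1 N2 B0 B1 = Complex.I • sig N1 N2 B0 B1 := by
    rw [h.sig_eq, ← Matrix.mul_assoc, Wm, h.cs2.J_eig, Matrix.smul_mul]
  rw [h1, h2, h3, smul_smul, ← sub_smul]
  congr 1
  simp only [ph, map_add, map_mul, Complex.conj_ofReal, Complex.conj_I]
  ring

end Cor

/-! ### the line -/

/-- the hermitian projection to the line of `u` -/
def lin (u : n → ℂ) : Matrix n n ℂ := fun i j => u i * (starRingEnd ℂ) (u j)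

/-- unit vectors -/
def Uni (u : n → ℂ) : Prop := ∑ j, (starRingEnd ℂ) (u j) * u j = 1

theorem lin_lin {u : n → ℂ} (hu : Uni u) : lin u * lin u = lin u := by
  ext i j
  simp only [Matrix.mul_apply, lin]
  have h1 : ∀ k, u i * (starRingEnd ℂ) (u k) * (u k * (starRingEnd ℂ) (u j)) =
      ((starRingEnd ℂ) (u k) * u k) * (u i * (starRingEnd ℂ) (u j)) := fun k => by ring
  rw [Finset.sum_congr rfl fun k _ => h1 k, ← Finset.sum_mul, hu, one_mul]

theorem lin_transpose (u : n → ℂ) : (lin u)ᵀ = (lin u).map (starRingEnd ℂ) := by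
  ext i j
  simp only [lin, Matrix.transpose_apply, Matrix.map_apply, map_mul, Complex.conj_conj]
  ring

theorem trace_lin {u : n → ℂ} (hu : Uni u) : trace (lin u) = 1 := by
  simp only [Matrix.trace, Matrix.diag, lin]
  rw [← hu]
  exact Finset.sum_congr rfl fun k _ => mul_comm _ _

theorem lin_phase (c : ℂ) (hc : (starRingEnd ℂ) c * c = 1) (u : n → ℂ) :
    lin (fun i => c * u i) = lin u := by
  ext i j
  simp only [lin, map_mul]
  calc c * u i * ((starRingEnd ℂ) c * (starRingEnd ℂ) (u j)) =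
      ((starRingEnd ℂ) c * c) * (u i * (starRingEnd ℂ) (u j)) := by ring
    _ = _ := by rw [hc, one_mul]

/-- `u^* ⊗ τ` -/
def kap (u : n → ℂ) (τ : Matrix n n ℂ) : Matrix n (n × n) ℂ :=
  fun i p => (starRingEnd ℂ) (u p.1) * τ i p.2

/-- `u ⊗ σ` -/
def lam (u : n → ℂ) (σ : Matrix n n ℂ) : Matrix (n × n) n ℂ := fun p i => u p.1 * σ p.2 i

theorem kap_lam {u : n → ℂ} (hu : Uni u) (τ σ : Matrix n n ℂ) : kap u τ * lam u σ = τ * σ := by
  ext i j
  simp only [Matrix.mul_apply, kap, lam, Fintype.sum_prod_type]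
  have h1 : ∀ a b, (starRingEnd ℂ) (u a) * τ i b * (u a * σ b j) =
      ((starRingEnd ℂ) (u a) * u a) * (τ i b * σ b j) := fun a b => by ring
  simp only [h1]
  simp only [← Finset.mul_sum]
  rw [← Finset.sum_mul, hu, one_mul]

theorem lam_kap (u : n → ℂ) (τ σ : Matrix n n ℂ) : lam u σ * kap u τ = kr (lin u) (σ * τ) := by
  ext p q
  simp only [Matrix.mul_apply, kap, lam, kr_apply, lin, Finset.mul_sum]
  exact Finset.sum_congr rfl fun k _ => by ring

theorem kap_kr {u : n → ℂ} (hu : Uni u) (τ W : Matrix n n ℂ) :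
    kap u τ * kr (lin u) W = kap u (τ * W) := by
  ext i q
  simp only [Matrix.mul_apply, kap, kr_apply, lin, Fintype.sum_prod_type]
  have h1 : ∀ a b, (starRingEnd ℂ) (u a) * τ i b * (u a * (starRingEnd ℂ) (u q.1) * W b q.2) =
      ((starRingEnd ℂ) (u a) * u a) * ((starRingEnd ℂ) (u q.1) * (τ i b * W b q.2)) :=
    fun a b => by ring
  simp only [h1]
  simp only [← Finset.mul_sum]
  rw [← Finset.sum_mul, hu, one_mul]

theorem mul_kap (u : n → ℂ) (τ X : Matrix n n ℂ) : X * kap u τ = kap u (X * τ) := by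
  ext i q
  simp only [Matrix.mul_apply, kap, Finset.mul_sum]
  exact Finset.sum_congr rfl fun k _ => by ring

theorem lam_mul (u : n → ℂ) (σ X : Matrix n n ℂ) : lam u σ * X = lam u (σ * X) := by
  ext i q
  simp only [Matrix.mul_apply, lam, Finset.mul_sum]
  exact Finset.sum_congr rfl fun k _ => by ring

theorem kr_lam {u : n → ℂ} (hu : Uni u) (σ W : Matrix n n ℂ) :
    kr (lin u) W * lam u σ = lam u (W * σ) := by
  ext p i
  simp only [Matrix.mul_apply, lam, kr_apply, lin, Fintype.sum_prod_type]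
  have h1 : ∀ a b, u p.1 * (starRingEnd ℂ) (u a) * W p.2 b * (u a * σ b i) =
      ((starRingEnd ℂ) (u a) * u a) * (u p.1 * (W p.2 b * σ b i)) :=
    fun a b => by ring
  simp only [h1]
  simp only [← Finset.mul_sum]
  rw [← Finset.sum_mul, hu, one_mul]

theorem kap_phase (c : ℂ) (hc : (starRingEnd ℂ) c * c = 1) (u : n → ℂ) (τ : Matrix n n ℂ) :
    kap (fun i => c * u i) (c • τ) = kap u τ := by
  ext i p
  simp only [kap, map_mul, Matrix.smul_apply, smul_eq_mul]
  calc (starRingEnd ℂ) c * (starRingEnd ℂ) (u p.1) * (c * τ i p.2) =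
      ((starRingEnd ℂ) c * c) * ((starRingEnd ℂ) (u p.1) * τ i p.2) := by ring
    _ = _ := by rw [hc, one_mul]

theorem lam_phase (c : ℂ) (hc : (starRingEnd ℂ) c * c = 1) (u : n → ℂ) (σ : Matrix n n ℂ) :
    lam (fun i => c * u i) ((starRingEnd ℂ) c • σ) = lam u σ := by
  ext p i
  simp only [lam, Matrix.smul_apply, smul_eq_mul]
  calc c * u p.1 * ((starRingEnd ℂ) c * σ p.2 i) =
      ((starRingEnd ℂ) c * c) * (u p.1 * σ p.2 i) := by ring
    _ = _ := by rw [hc, one_mul]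

theorem ph_conj (s : ℝ) : (starRingEnd ℂ) (Cor.ph s) * Cor.ph s = 1 := by
  have h := Real.sin_sq_add_cos_sq s
  apply Complex.ext
  · simp only [Cor.ph, map_add, map_mul, Complex.conj_ofReal, Complex.conj_I, Complex.mul_re,
      Complex.add_re, Complex.ofReal_re, Complex.ofReal_im, Complex.I_re, Complex.I_im,
      Complex.add_im, Complex.mul_im, Complex.neg_re, Complex.neg_im, Complex.one_re]
    nlinarith
  · simp only [Cor.ph, map_add, map_mul, Complex.conj_ofReal, Complex.conj_I, Complex.mul_re,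
      Complex.add_re, Complex.ofReal_re, Complex.ofReal_im, Complex.I_re, Complex.I_im,
      Complex.add_im, Complex.mul_im, Complex.neg_re, Complex.neg_im, Complex.one_im]
    ring

/-- the vector `(a - i b) / √2` -/
def uu (a b : n → ℝ) (j : n) : ℂ := ((Real.sqrt 2)⁻¹ : ℝ) * ((a j : ℂ) - Complex.I * (b j : ℂ))

theorem uni_uu {a b : n → ℝ} (ha : ∑ j, a j * a j = 1) (hb : ∑ j, b j * b j = 1) :
    Uni (uu a b) := by
  have h2 : (Real.sqrt 2)⁻¹ * (Real.sqrt 2)⁻¹ = (1 / 2 : ℝ) := by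
    rw [← mul_inv, Real.mul_self_sqrt (by norm_num)]
    norm_num
  have h1 : ∀ j, (starRingEnd ℂ) (uu a b j) * uu a b j =
      ((1 / 2 * (a j * a j) + 1 / 2 * (b j * b j) : ℝ) : ℂ) := by
    intro j
    apply Complex.ext
    · simp only [uu, map_mul, map_sub, Complex.conj_ofReal, Complex.conj_I, Complex.mul_re,
        Complex.sub_re, Complex.ofReal_re, Complex.ofReal_im, Complex.I_re, Complex.I_im,
        Complex.sub_im, Complex.mul_im, Complex.neg_re, Complex.neg_im]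
      rw [← h2]
      ring
    · simp only [uu, map_mul, map_sub, Complex.conj_ofReal, Complex.conj_I, Complex.mul_re,
        Complex.sub_re, Complex.ofReal_re, Complex.ofReal_im, Complex.I_re, Complex.I_im,
        Complex.sub_im, Complex.mul_im, Complex.neg_re, Complex.neg_im]
      ring
  unfold Uni
  rw [Finset.sum_congr rfl fun j _ => h1 j, ← Complex.ofReal_sum, Finset.sum_add_distrib,
    ← Finset.mul_sum, ← Finset.mul_sum, ha, hb]
  norm_num

/-- `L + L̄` is the projection to the real plane of `a` and `b` -/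
theorem lin_uu_add (a b : n → ℝ) : lin (uu a b) + (lin (uu a b)).map (starRingEnd ℂ) =
    cplx (fun i j => a i * a j + b i * b j) := by
  have h2 : (Real.sqrt 2)⁻¹ * (Real.sqrt 2)⁻¹ = (1 / 2 : ℝ) := by
    rw [← mul_inv, Real.mul_self_sqrt (by norm_num)]
    norm_num
  ext i j
  rw [Matrix.add_apply, Matrix.map_apply, Complex.add_conj]
  change _ = ((a i * a j + b i * b j : ℝ) : ℂ)
  congr 1
  simp only [lin, uu, map_mul, map_sub, Complex.conj_ofReal, Complex.conj_I, Complex.mul_re,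
    Complex.sub_re, Complex.ofReal_re, Complex.ofReal_im, Complex.I_re, Complex.I_im,
    Complex.sub_im, Complex.mul_im, Complex.neg_re, Complex.neg_im]
  have h3 : ∀ z : ℝ, (Real.sqrt 2)⁻¹ * ((Real.sqrt 2)⁻¹ * z) = 1 / 2 * z := fun z => by
    rw [← mul_assoc, h2]
  ring_nf
  have h4 : (Real.sqrt 2)⁻¹ ^ 2 = (1 / 2 : ℝ) := by rw [sq, h2]
  rw [h4]
  ring

/-- `L L̄ = 0` -/
theorem lin_uu_mul {a b : n → ℝ} (ha : ∑ j, a j * a j = 1) (hb : ∑ j, b j * b j = 1)
    (hab : ∑ j, a j * b j = 0) : lin (uu a b) * (lin (uu a b)).map (starRingEnd ℂ) = 0 := by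
  have h0 : ∑ k, (starRingEnd ℂ) (uu a b k) * (starRingEnd ℂ) (uu a b k) = 0 := by
    have h1 : ∀ j, (starRingEnd ℂ) (uu a b j) * (starRingEnd ℂ) (uu a b j) =
        (((Real.sqrt 2)⁻¹ * (Real.sqrt 2)⁻¹ : ℝ) : ℂ) *
          (((a j * a j - b j * b j : ℝ) : ℂ) + (2 * Complex.I) * ((a j * b j : ℝ) : ℂ)) := by
      intro j
      simp only [uu, map_mul, map_sub, Complex.conj_ofReal, Complex.conj_I]
      push_cast
      linear_combination (-(((Real.sqrt 2)⁻¹ : ℝ) : ℂ) ^ 2 * ((b j : ℂ)) ^ 2 *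
        0 + 0) * Complex.I_sq + (((Real.sqrt 2 : ℝ) : ℂ)⁻¹ ^ 2 * (b j : ℂ) ^ 2) * Complex.I_sq
    rw [Finset.sum_congr rfl fun j _ => h1 j, ← Finset.mul_sum, Finset.sum_add_distrib,
      ← Finset.mul_sum, ← Complex.ofReal_sum, ← Complex.ofReal_sum, Finset.sum_sub_distrib, ha, hb,
      hab]
    simp
  ext i j
  simp only [Matrix.mul_apply, lin, Matrix.map_apply, map_mul, Complex.conj_conj,
    Matrix.zero_apply]
  have h1 : ∀ k, uu a b i * (starRingEnd ℂ) (uu a b k) *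
      ((starRingEnd ℂ) (uu a b k) * uu a b j) =
      ((starRingEnd ℂ) (uu a b k) * (starRingEnd ℂ) (uu a b k)) * (uu a b i * uu a b j) :=
    fun k => by ring
  rw [Finset.sum_congr rfl fun k _ => h1 k, ← Finset.sum_mul, h0, zero_mul]

/-- rotation of the frame -/
theorem uu_rot (a b : n → ℝ) (s : ℝ) :
    uu (fun j => Real.cos s * a j + Real.sin s * b j)
      (fun j => -Real.sin s * a j + Real.cos s * b j) = fun j => Cor.ph s * uu a b j := by
  funext j
  apply Complex.ext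
  · simp only [uu, Cor.ph, Complex.mul_re, Complex.add_re, Complex.sub_re, Complex.ofReal_re,
      Complex.ofReal_im, Complex.I_re, Complex.I_im, Complex.add_im, Complex.sub_im,
      Complex.mul_im, Complex.ofReal_add, Complex.ofReal_mul, Complex.ofReal_neg,
      Complex.neg_re, Complex.neg_im]
    ring
  · simp only [uu, Cor.ph, Complex.mul_re, Complex.add_re, Complex.sub_re, Complex.ofReal_re,
      Complex.ofReal_im, Complex.I_re, Complex.I_im, Complex.add_im, Complex.sub_im,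
      Complex.mul_im, Complex.ofReal_add, Complex.ofReal_mul, Complex.ofReal_neg,
      Complex.neg_re, Complex.neg_im]
    ring

end

end Vale.Agent.P231.X3
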