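import Vale.Agent.P231.ChW.FnM
import Vale.Agent.P231.A3.Sq
import Vale.Agent.P231.X3.Cplx

/-!
# P231, stage 2, block X3 (part 8): pull-back by maps commuting with the flow, and the structures
`FourLines`, `Split` from matrices of functions
-/

set_option linter.unusedSectionVars false
set_option linter.unusedVariables false

open Matrix Set Filter Topology
open scoped ContDiff

namespace Vale.Agent.P231.X3

open Vale.Agent.P231.Fm Vale.Agent.P231.W Vale.Agent.P231.ChW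

noncomputable section

variable {X : Type*} {D : Dif X} {Φ : X × ℝ → X} {hΦ : (D.prod (Dif.lin ℝ)).Map D Φ}
variable {n : Type*} [Fintype n] [DecidableEq n]

/-! ### pull-back -/

section Pull

variable {θ : X → X} (hθ : D.Map D θ) (hθR : ∀ x t, θ (Φ (x, t)) = Φ (θ x, t))

/-- pull-backs by maps commuting with the flow preserve basic forms -/
theorem basic_pull_comm {w : Form D} (hw : Basic Φ hΦ w) (hθR : ∀ x t, θ (Φ (x, t)) = Φ (θ x, t)) :
    Basic Φ hΦ (Form.pull θ hθ w) := by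
  rw [H584.basic_def]
  have hm : (D.prod (Dif.lin ℝ)).Map D (fun p : X × ℝ => θ (Φ p)) :=
    Dif.Map.comp (f := Φ) (g := θ) hθ hΦ
  have h2 : Form.pull Φ hΦ (Form.pull θ hθ w) = Form.pull (fun p : X × ℝ => θ (Φ p)) hm w :=
    H584.pull_pull hΦ hθ hm (fun p => rfl) w
  have h3 : Form.pull (fun p : X × ℝ => (θ p.1, p.2)) (H584.map_cyl hθ) (Form.pull Φ hΦ w) =
      Form.pull (fun p : X × ℝ => θ (Φ p)) hm w :=
    H584.pull_pull (H584.map_cyl hθ) hΦ hm (fun p => (hθR p.1 p.2).symm) w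
  rw [h2, ← h3, hw, H584.pull_pr hθ]

/-- the pull-back on closed even basic forms -/
def basPull (hθR : ∀ x t, θ (Φ (x, t)) = Φ (θ x, t)) : H584.Bas Φ hΦ →ₐ[ℝ] H584.Bas Φ hΦ :=
  ((Form.pullA θ hθ).comp (H584.Bas Φ hΦ).val).codRestrict (H584.Bas Φ hΦ) fun a => by
    refine ⟨?_, ?_, basic_pull_comm hθ a.2.2.2 hθR⟩
    · have h1 : (Form.pull θ hθ a.1).sg = Form.pull θ hθ a.1.sg := (Form.pull_sg θ hθ a.1).symm
      exact h1.trans (by rw [a.2.1]; rfl)
    · have h1 : (Form.pull θ hθ a.1).d = Form.pull θ hθ a.1.d := (Form.pull_d θ hθ a.1).symm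
      exact h1.trans (by rw [a.2.2.1]; exact map_zero (Form.pullA θ hθ))

theorem basPull_coe (a : H584.Bas Φ hΦ) :
    (basPull hθ hθR a : Form D) = Form.pull θ hθ a := rfl

/-- the pull-back on classes -/
def hbPull (hθR : ∀ x t, θ (Φ (x, t)) = Φ (θ x, t)) : Hb Φ hΦ →ₐ[ℝ] Hb Φ hΦ :=
  Ideal.Quotient.liftₐ (H584.Exa Φ hΦ) ((qm Φ hΦ).comp (basPull hθ hθR)) fun a ha => by
    obtain ⟨u, hu, hu'⟩ := ha
    have h1 : qm Φ hΦ (basPull hθ hθR a) = qm Φ hΦ 0 := by
      refine qm_eq_of (η := Form.pull θ hθ u) (basic_pull_comm hθ hu hθR) ?_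
      rw [basPull_coe, hu', Form.pull_d]
      change _ - (0 : Form D) = _
      rw [sub_zero]
    change qm Φ hΦ (basPull hθ hθR a) = 0
    rw [h1, map_zero]

theorem hbPull_qm (a : H584.Bas Φ hΦ) :
    hbPull hθ hθR (qm Φ hΦ a) = qm Φ hΦ (basPull hθ hθR a) := rfl

/-- the pull-back of a basic idempotent -/
theorem ib_pull (hθR : ∀ x t, θ (Φ (x, t)) = Φ (θ x, t)) {P : Matrix n n (CF D)}
    (hP : IB Φ hΦ P) : IB Φ hΦ (P.map (pullC θ hθ)) := by
  refine ⟨⟨?_, ?_⟩, ?_⟩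
  · have h1 := hP.idem.ev
    unfold Ev at h1 ⊢
    ext1 i j
    have h2 : GDA.sg (P i j) = P i j := congrFun (congrFun h1 i) j
    exact (pullC_sg θ hθ (P i j)).symm.trans (congrArg (pullC θ hθ) h2)
  · rw [← Matrix.map_mul, hP.idem.idem]
  · have h1 := hP.bas
    unfold BasicM at h1 ⊢
    ext1 i j
    have h2 := congrFun (congrFun h1 i) j
    rw [Matrix.map_apply, Matrix.map_apply] at h2
    rw [Matrix.map_apply, Matrix.map_apply, Matrix.map_apply]
    have h3 : Basic Φ hΦ (P i j).re := congrArg Cx.re h2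
    have h4 : Basic Φ hΦ (P i j).im := congrArg Cx.im h2
    ext1
    · exact basic_pull_comm hθ h3 hθR
    · exact basic_pull_comm hθ h4 hθR

/-- naturality of the classes -/
theorem qc_pull (hθR : ∀ x t, θ (Φ (x, t)) = Φ (θ x, t)) {P : Matrix n n (CF D)}
    (hP : IB Φ hΦ P) (k : ℕ) :
    (ib_pull hθ hθR hP).qc k = Cx.mapR (hbPull hθ hθR : Hb Φ hΦ →+* Hb Φ hΦ) (hP.qc k) := by
  have h1 : sC k (P.map (pullC θ hθ)) = pullC θ hθ (sC k P) := by
    rw [sC, sC, pullC_smul, map_ch _ (pullC_d θ hθ)]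
  ext1
  · change qm Φ hΦ _ = qm Φ hΦ (basPull hθ hθR _)
    congr 1
    exact Subtype.ext (congrArg Cx.re h1)
  · change qm Φ hΦ _ = qm Φ hΦ (basPull hθ hθR _)
    congr 1
    exact Subtype.ext (congrArg Cx.im h1)

theorem mapR_of {A B : Type*} [CommRing A] [CommRing B] (f : A →+* B) (a : A) :
    Cx.mapR f (Cx.of a) = Cx.of (f a) := by
  ext1
  · rfl
  · exact map_zero f

end Pull

/-! ### idempotents and traces -/

theorem trace_eq_rank {q : Matrix n n ℂ} (hq : q * q = q) : q.trace = (q.rank : ℂ) := by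
  obtain ⟨a, b, h1, h2⟩ := exists_factor hq
  conv_lhs => rw [← h1]
  rw [Matrix.trace_mul_comm, h2, Matrix.trace_one, Fintype.card_fin]

theorem trace_eig_eq {N J : Matrix n n ℝ} (h : CS N J) {r : ℕ} (ht : trace N = 2 * r) :
    trace (eig N J) = r := by
  have h1 := trace_eq_rank h.eig_eig
  have h2 := h.trace_eig
  rw [h1] at h2 ⊢
  have h3 : ((eig N J).rank : ℝ) = r := by
    rw [Complex.natCast_re] at h2
    rw [h2, ht]
    ring
  have h4 : (eig N J).rank = r := by exact_mod_cast h3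
  rw [h4]

/-! ### matrices of functions -/

section Fun

variable {a b : X → Matrix n n ℂ}

theorem cM_mul_zero (ha : SmM D a) (hb : SmM D b) (h : ∀ x, a x * b x = 0) :
    cM a ha * cM b hb = 0 := by
  rw [cM_mul]
  exact cM_eq_zero _ h

theorem cM_mul_cj_zero (ha : SmM D a) (hb : SmM D b)
    (h : ∀ x, a x * (b x).map (starRingEnd ℂ) = 0) : cM a ha * cj (cM b hb) = 0 := by
  rw [cj_cM, cM_mul]
  exact cM_eq_zero _ h

theorem cj_mul_cM_zero (ha : SmM D a) (hb : SmM D b)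
    (h : ∀ x, (a x).map (starRingEnd ℂ) * b x = 0) : cj (cM a ha) * cM b hb = 0 := by
  rw [cj_cM, cM_mul]
  exact cM_eq_zero _ h

/-- a plane bundle decomposed in four lines, pointwise -/
structure FL (Φ : X × ℝ → X) (pm : X → Matrix n n ℝ) (lm mm : X → Matrix n n ℂ) : Prop where
  rl : ∀ x t, lm (Φ (x, t)) = lm x
  rm : ∀ x t, mm (Φ (x, t)) = mm x
  il : ∀ x, lm x * lm x = lm x
  im : ∀ x, mm x * mm x = mm x
  tl : ∀ x, trace (lm x) = 1
  tm : ∀ x, trace (mm x) = 1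
  ll : ∀ x, lm x * (lm x).map (starRingEnd ℂ) = 0
  mm' : ∀ x, mm x * (mm x).map (starRingEnd ℂ) = 0
  lm' : ∀ x, lm x * mm x = 0
  ml : ∀ x, mm x * lm x = 0
  lcm : ∀ x, lm x * (mm x).map (starRingEnd ℂ) = 0
  cml : ∀ x, (mm x).map (starRingEnd ℂ) * lm x = 0
  eq : ∀ x, cplx (pm x) = lm x + (lm x).map (starRingEnd ℂ) +
    (mm x + (mm x).map (starRingEnd ℂ))

theorem FL.four {pm : X → Matrix n n ℝ} {lm mm : X → Matrix n n ℂ} (h : FL Φ pm lm mm)
    (hp : SmM D pm) (hl : SmM D lm) (hm : SmM D mm) :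
    FourLines Φ hΦ (rM pm hp) (cM lm hl) (cM mm hm) where
  ibL := ib_cM hl h.il h.rl
  ibM := ib_cM hm h.im h.rm
  oneL := rankOne_cM hl h.il h.tl
  oneM := rankOne_cM hm h.im h.tm
  LL := cM_mul_cj_zero hl hl h.ll
  MM := cM_mul_cj_zero hm hm h.mm'
  LM := cM_mul_zero hl hm h.lm'
  ML := cM_mul_zero hm hl h.ml
  LM' := cM_mul_cj_zero hl hm h.lcm
  ML' := cj_mul_cM_zero hm hl h.cml
  eq := by
    rw [rM_map_of, cj_cM, cj_cM, cM_add, cM_add, cM_add]
    exact cM_congr _ _ h.eq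

/-- the decomposition is compatible with maps commuting with the flow -/
theorem FL.comp {pm : X → Matrix n n ℝ} {lm mm : X → Matrix n n ℂ} (h : FL Φ pm lm mm)
    {θ : X → X} (hθR : ∀ x t, θ (Φ (x, t)) = Φ (θ x, t)) :
    FL Φ (fun x => pm (θ x)) (fun x => lm (θ x)) (fun x => mm (θ x)) where
  rl x t := by rw [hθR, h.rl]
  rm x t := by rw [hθR, h.rm]
  il x := h.il _
  im x := h.im _
  tl x := h.tl _
  tm x := h.tm _
  ll x := h.ll _
  mm' x := h.mm' _
  lm' x := h.lm' _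
  ml x := h.ml _
  lcm x := h.lcm _
  cml x := h.cml _
  eq x := h.eq _

/-- a real bundle and its splitting, pointwise -/
structure Spl (Φ : X × ℝ → X) (tm pm : X → Matrix n n ℝ) (wm : X → Matrix n n ℂ) : Prop where
  rt : ∀ x t, tm (Φ (x, t)) = tm x
  rw' : ∀ x t, wm (Φ (x, t)) = wm x
  it : ∀ x, tm x * tm x = tm x
  iw : ∀ x, wm x * wm x = wm x
  ww : ∀ x, wm x * (wm x).map (starRingEnd ℂ) = 0
  pn : ∀ x, pm x * (tm x - pm x) = 0
  np : ∀ x, (tm x - pm x) * pm x = 0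
  eq : ∀ x, cplx (tm x - pm x) = wm x + (wm x).map (starRingEnd ℂ)

theorem Spl.split {tm pm : X → Matrix n n ℝ} {lm mm wm : X → Matrix n n ℂ} (h : Spl Φ tm pm wm)
    (h' : FL Φ pm lm mm) (ht : SmM D tm) (hp : SmM D pm) (hl : SmM D lm) (hm : SmM D mm)
    (hw : SmM D wm) : Split Φ hΦ (rM tm ht) (rM pm hp) (cM lm hl) (cM mm hm) (cM wm hw) where
  four := h'.four hp hl hm
  ibZ := ib_cM hw h.iw h.rw'
  ZZ := cM_mul_cj_zero hw hw h.ww
  ibT := by
    rw [rM_map_of]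
    refine ib_cM _ (fun x => ?_) fun x t => ?_
    · change cplx (tm x) * cplx (tm x) = cplx (tm x)
      rw [← cplx_mul, h.it]
    · rw [h.rt]
  PQ := by
    rw [rM_map_of, cj_cM, cM_add, cM_mul]
    refine cM_eq_zero _ fun x => ?_
    change cplx (pm x) * _ = 0
    rw [← h.eq, ← cplx_mul, h.pn]
    ext i j
    simp
  QP := by
    rw [rM_map_of, cj_cM, cM_add, cM_mul]
    refine cM_eq_zero _ fun x => ?_
    change _ * cplx (pm x) = 0
    rw [← h.eq, ← cplx_mul, h.np]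
    ext i j
    simp
  eq := by
    rw [rM_map_of, rM_map_of, cj_cM, cM_add, cM_add]
    refine cM_congr _ _ fun x => ?_
    change cplx (tm x) = cplx (pm x) + _
    rw [← h.eq, ← cplx_add]
    congr 1
    abel

end Fun

end

end Vale.Agent.P231.X3
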