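import Vale.Agent.P231.X3.Line
import Vale.Agent.P231.X3.Pull
import Vale.Agent.P231.WR.Tra

/-!
# P231, stage 2, block X3 (part 9): the bundles over `V = V₂(P)` with all their relations
-/

set_option maxSynthPendingDepth 3
set_option linter.unusedSectionVars false
set_option linter.unusedVariables false

open Bundle Manifold Set Filter Module Matrix
open scoped ContDiff Manifold Topology Real

namespace Vale.Agent.P231.X3

noncomputable section

open Vale.Agent.P234 Vale.Agent.P231 Vale.Agent.P231.Fm Vale.Agent.P231.W Vale.Agent.P231.WR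
  Vale.Agent.P231.ChW

variable {E : Type*} [NormedAddCommGroup E] [NormedSpace ℝ E] [FiniteDimensional ℝ E]
  {M : Type*} [MetricSpace M] [ChartedSpace E M] [IsManifold 𝓘(ℝ, E) ∞ M]
  [RiemannianBundle (fun x : M => TangentSpace 𝓘(ℝ, E) x)]
  [IsContMDiffRiemannianBundle 𝓘(ℝ, E) ∞ E (fun x : M => TangentSpace 𝓘(ℝ, E) x)]
  [CompactSpace M] [ConnectedSpace M] [IsRiemannianManifold 𝓘(ℝ, E) M]
  {e : ∀ x : M, TangentSpace 𝓘(ℝ, E) x → M} {K : ℕ} {D : ℝ} {l : ℕ}

/-! ### the half period -/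

/-- the half period on pairs -/
def Geo.Th (G : Geo e D l) : Pr e D → Pr e D := WR.Th G.F G.hD G.hB G.hdiam

theorem Geo.map_Th (G : Geo e D l) : (dPr e D).Map (dPr e D) G.Th :=
  WR.map_Th G.F G.hD G.hB G.hdiam

theorem Geo.Th_R (G : Geo e D l) (p : Pr e D) (t : ℝ) : G.Th (G.R (p, t)) = G.R (G.Th p, t) :=
  WR.Th_R G.F G.hD G.hB G.hdiam p t

theorem Geo.Th_Th (G : Geo e D l) (p : Pr e D) : G.Th (G.Th p) = p :=
  WR.Th_Th G.F G.hD G.hB G.hdiam p

theorem Geo.foot_Th (G : Geo e D l) (p : Pr e D) : foot (G.Th p).v = bar e D p.v := rfl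

theorem Geo.bar_Th (G : Geo e D l) (p : Pr e D) : bar e D (G.Th p).v = foot p.v :=
  WR.bar_phi G.F G.hD G.hB G.hdiam p.v

theorem tB_eq (G : Geo e D l) (P : PF E M K) (p : Pr e D) : tB P p = tF P (G.Th p) := rfl

theorem pB_eq (G : Geo e D l) (P : PF E M K) (p : Pr e D) : pB P p = pF P (G.Th p) :=
  mat_congr P (G.foot_Th p).symm (G.foot_Th p).symm
    fun a => (prP_phi G.F G.hD G.hB G.hdiam p.v a).symm

theorem nB_eq' (G : Geo e D l) (P : PF E M K) (p : Pr e D) : nB P p = nF P (G.Th p) := by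
  rw [nB_eq, nF_eq, tB_eq G, pB_eq G]

/-! ### traces -/

theorem trace_tF (P : PF E M K) (p : Pr e D) : trace (tF P p) = finrank ℝ E := trace_tm P _

theorem trace_pF (G : Geo e D l) (P : PF E M K) (p : Pr e D) : trace (pF P p) = (l : ℝ) + 1 :=
  trace_mat_prP G.F G.hD G.hB G.hP P p.v

theorem trace_nF (G : Geo e D l) (P : PF E M K) {r : ℕ} (hr : finrank ℝ E = l + 1 + 2 * r)
    (p : Pr e D) : trace (nF P p) = 2 * r := by
  rw [nF_eq, Matrix.trace_sub, trace_tF, trace_pF G, hr]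
  push_cast
  ring

theorem trace_nB (G : Geo e D l) (P : PF E M K) {r : ℕ} (hr : finrank ℝ E = l + 1 + 2 * r)
    (p : Pr e D) : trace (nB P p) = 2 * r := by
  rw [nB_eq' G, trace_nF G P hr]

theorem trace_Zm (G : Geo e D l) (P : PF E M K) {r : ℕ} (hr : finrank ℝ E = l + 1 + 2 * r)
    (p : Pr e D) : trace (Zm G P p) = r :=
  trace_eig_eq (cor G P p).cs2 (trace_nB G P hr p)

theorem trace_Wf (G : Geo e D l) (P : PF E M K) {r : ℕ} (hr : finrank ℝ E = l + 1 + 2 * r)
    (p : Pr e D) : trace (Wf G P p) = r :=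
  trace_eig_eq (cor G P p).cs1 (trace_nF G P hr p)

/-! ### the splittings of the tangent bundles -/

theorem spl_F (G : Geo e D l) (P : PF E M K) : Spl G.R (tF P) (pF P) (Wf G P) where
  rt p t := tF_R G P p t
  rw' p t := Wf_R G P p t
  it p := tF_idem P p
  iw p := (cor G P p).cs1.eig_eig
  ww p := (cor G P p).cs1.eig_conj
  pn p := by rw [← nF_eq, pF_nF]
  np p := by rw [← nF_eq, nF_pF]
  eq p := by
    rw [← nF_eq]
    exact ((cor G P p).cs1.eig_add).symm

theorem spl_B (G : Geo e D l) (P : PF E M K) : Spl G.R (tB P) (pB P) (Zm G P) where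
  rt p t := tB_R G P p t
  rw' p t := Zm_R G P p t
  it p := tB_idem P p
  iw p := (cor G P p).cs2.eig_eig
  ww p := (cor G P p).cs2.eig_conj
  pn p := by rw [← nB_eq, pB_nB]
  np p := by rw [← nB_eq, nB_pB]
  eq p := by
    rw [← nB_eq]
    exact ((cor G P p).cs2.eig_add).symm

/-! ### the four lines -/

/-- an orthogonal complex structure on the complement of `v`, `w` in the plane -/
structure Lp (G : Geo e D l) (P : PF E M K) (j : Pr e D → Matrix (Fin K) (Fin K) ℝ) : Prop where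
  sm : SmM (dPr e D) j
  cs : ∀ p, CS (qF P p) (j p)
  rot : ∀ p t, j (G.R (p, t)) = j p

/-- the second line -/
def Mm (P : PF E M K) (j : Pr e D → Matrix (Fin K) (Fin K) ℝ) (p : Pr e D) :
    Matrix (Fin K) (Fin K) ℂ := eig (qF P p) (j p)

theorem Lm_cplx (P : PF E M K) (p : Pr e D) : Lm P p * cplx (lF P p) = Lm P p := by
  rw [← Lm_add, Matrix.mul_add, Lm_idem, Lm_conj, add_zero]

theorem cplx_Lm (P : PF E M K) (p : Pr e D) : cplx (lF P p) * Lm P p = Lm P p := by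
  rw [← Lm_add, Matrix.add_mul, Lm_idem]
  have h1 := congrArg (fun A : Matrix (Fin K) (Fin K) ℂ => A.map (starRingEnd ℂ)) (Lm_conj P p)
  simp only [CS.conj_mul, CS.conj_conj] at h1
  rw [h1]
  ext i j
  simp

theorem cplx_zero' : cplx (0 : Matrix (Fin K) (Fin K) ℝ) = 0 := by
  ext i j
  simp

theorem fl_F (G : Geo e D l) (hl : l = 3) (P : PF E M K)
    {j : Pr e D → Matrix (Fin K) (Fin K) ℝ} (J : Lp G P j) : FL G.R (pF P) (Lm P) (Mm P j) := by
  have hq1 : ∀ p, cplx (qF P p) * Mm P j p = Mm P j p := fun p => (J.cs p).N_eig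
  have hq2 : ∀ p, Mm P j p * cplx (qF P p) = Mm P j p := fun p => (J.cs p).eig_N
  have hq3 : ∀ p, cplx (qF P p) * (Mm P j p).map (starRingEnd ℂ) =
      (Mm P j p).map (starRingEnd ℂ) := fun p => by
    have h1 := congrArg (fun A : Matrix (Fin K) (Fin K) ℂ => A.map (starRingEnd ℂ)) (hq1 p)
    simp only [CS.conj_mul, cplx_conj] at h1
    exact h1
  have hq4 : ∀ p, (Mm P j p).map (starRingEnd ℂ) * cplx (qF P p) =
      (Mm P j p).map (starRingEnd ℂ) := fun p => by
    have h1 := congrArg (fun A : Matrix (Fin K) (Fin K) ℂ => A.map (starRingEnd ℂ)) (hq2 p)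
    simp only [CS.conj_mul, cplx_conj] at h1
    exact h1
  have hlq : ∀ p : Pr e D, cplx (lF P p) * cplx (qF P p) = 0 := fun p => by
    rw [← cplx_mul, lF_qF, cplx_zero']
  have hql : ∀ p : Pr e D, cplx (qF P p) * cplx (lF P p) = 0 := fun p => by
    rw [← cplx_mul, qF_lF, cplx_zero']
  have hL : ∀ p : Pr e D, Lm P p * cplx (qF P p) = 0 := fun p => by
    rw [← Lm_cplx, Matrix.mul_assoc, hlq, Matrix.mul_zero]
  have hL' : ∀ p : Pr e D, cplx (qF P p) * Lm P p = 0 := fun p => by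
    rw [← cplx_Lm, ← Matrix.mul_assoc, hql, Matrix.zero_mul]
  exact
    { rl := Lm_R G P
      rm := fun p t => by rw [Mm, qF_R, J.rot]; rfl
      il := Lm_idem P
      im := fun p => (J.cs p).eig_eig
      tl := trace_Lm P
      tm := fun p => by
        have h1 : trace (qF P p) = 2 * ((1 : ℕ) : ℝ) := by
          rw [qF, Matrix.trace_sub, trace_pF G, trace_lF, hl]
          norm_num
        have h2 := trace_eig_eq (J.cs p) h1
        rw [Nat.cast_one] at h2
        exact h2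
      ll := Lm_conj P
      mm' := fun p => (J.cs p).eig_conj
      lm' := fun p => by rw [← hq1, ← Matrix.mul_assoc, hL, Matrix.zero_mul]
      ml := fun p => by rw [← hq2, Matrix.mul_assoc, hL', Matrix.mul_zero]
      lcm := fun p => by rw [← hq3, ← Matrix.mul_assoc, hL, Matrix.zero_mul]
      cml := fun p => by rw [← hq4, Matrix.mul_assoc, hL', Matrix.mul_zero]
      eq := fun p => by
        have h1 : Mm P j p + (Mm P j p).map (starRingEnd ℂ) = cplx (qF P p) := (J.cs p).eig_add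
        rw [Lm_add, h1, ← cplx_add, qF, add_sub_cancel] }

theorem fl_B (G : Geo e D l) (hl : l = 3) (P : PF E M K)
    {j : Pr e D → Matrix (Fin K) (Fin K) ℝ} (J : Lp G P j) :
    FL G.R (pB P) (fun p => Lm P (G.Th p)) (fun p => Mm P j (G.Th p)) := by
  have h1 := (fl_F G hl P J).comp G.Th_R
  have h2 : (fun p => pF P (G.Th p)) = pB P := funext fun p => (pB_eq G P p).symm
  rw [h2] at h1
  exact h1

theorem sm_Mm (G : Geo e D l) (P : PF E M K) {j : Pr e D → Matrix (Fin K) (Fin K) ℝ}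
    (J : Lp G P j) : SmM (dPr e D) (Mm P j) := sm_eig (sm_qF G P) J.sm

/-! ### the isomorphism `W ≅ L ⊗ Z` -/

/-- the map `L ⊗ Z → W` -/
def ka (G : Geo e D l) (P : PF E M K) (p : Pr e D) : Matrix (Fin K) (Fin K × Fin K) ℂ :=
  kap (uv P p) (tau G P p)

/-- the map `W → L ⊗ Z` -/
def la (G : Geo e D l) (P : PF E M K) (p : Pr e D) : Matrix (Fin K × Fin K) (Fin K) ℂ :=
  lam (uv P p) (sig G P p)

theorem sm_ka (G : Geo e D l) (P : PF E M K) : SmM (dPr e D) (ka G P) := fun i q =>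
  (sm_uv P q.1).conj.mul (sm_tau G P i q.2)

theorem sm_la (G : Geo e D l) (P : PF E M K) : SmM (dPr e D) (la G P) := fun q i =>
  (sm_uv P q.1).mul (sm_sig G P q.2 i)

theorem ka_R (G : Geo e D l) (P : PF E M K) (p : Pr e D) (t : ℝ) :
    ka G P (G.R (p, t)) = ka G P p := by
  rw [ka, uv_R, tau_R, kap_phase _ (ph_conj t)]
  rfl

theorem la_R (G : Geo e D l) (P : PF E M K) (p : Pr e D) (t : ℝ) :
    la G P (G.R (p, t)) = la G P p := by
  rw [la, uv_R, sig_R, lam_phase _ (ph_conj t)]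
  rfl

theorem ka_la (G : Geo e D l) (P : PF E M K) (p : Pr e D) : ka G P p * la G P p = Wf G P p := by
  rw [ka, la, kap_lam (uni_uv P p)]
  exact (cor G P p).tau_sig

theorem la_ka (G : Geo e D l) (P : PF E M K) (p : Pr e D) :
    la G P p * ka G P p = kr (Lm P p) (Zm G P p) := by
  rw [ka, la, lam_kap]
  congr 1
  exact (cor G P p).sig_tau

/-! ### the first Chern class of the line -/

/-- the form `- dν / 2π` -/
def yB (G : Geo e D l) (P : PF E M K) : H584.Bas G.R G.map_R :=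
  ⟨-(1 / (2 * Real.pi)) • (nu e D P).d, by
    have h1 := Form.d_sg (nu e D P)
    rw [nu_sg, Form.d_neg] at h1
    rw [Form.sg_smul, ← neg_injective h1], by rw [Form.d_smul, Form.d_d, smul_zero],
    by
      refine H584.Basic.smul _ ?_
      have h1 := congrArg Form.d (nu_R G P)
      rw [← Form.pull_d, Form.d_add, WA.d_dt, add_zero] at h1
      refine h1.trans ?_
      exact (Form.pull_d _ Dif.map_fst (nu e D P)).symm⟩

theorem ib_Lm (G : Geo e D l) (P : PF E M K) : IB G.R G.map_R (cM (Lm P) (sm_Lm P)) :=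
  ib_cM _ (Lm_idem P) (Lm_R G P)

theorem qc_Lm (G : Geo e D l) (P : PF E M K) :
    (ib_Lm G P).qc 1 = Cx.of (qm G.R G.map_R (yB G P)) := by
  have h1 := sC_Lm (e := e) (D := D) P
  ext1
  · change qm G.R G.map_R _ = qm G.R G.map_R _
    congr 1
    exact Subtype.ext (congrArg Cx.re h1)
  · change qm G.R G.map_R _ = 0
    rw [← map_zero (qm G.R G.map_R)]
    congr 1
    exact Subtype.ext (congrArg Cx.im h1)

/-- the class `y` is invariant under the half period -/
theorem hbPull_y (G : Geo e D l) (P : PF E M K) :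
    hbPull G.map_Th G.Th_R (qm G.R G.map_R (yB G P)) = qm G.R G.map_R (yB G P) := by
  rw [hbPull_qm]
  have h1 := A3.basic_conn G.isFlow_R (nu_R G P) G.map_Th G.Th_R
  refine qm_eq_of (η := -(1 / (2 * Real.pi)) • (Form.pull G.Th G.map_Th (nu e D P) - nu e D P))
    (H584.Basic.smul _ h1) ?_
  rw [basPull_coe, Form.d_smul, Form.d_sub, ← Form.pull_d, smul_sub]
  congr 1
  exact map_smul (Form.pullA G.Th G.map_Th) _ _

/-! ### the structure `Bun` -/

theorem ib_Mm (G : Geo e D l) (P : PF E M K) {j : Pr e D → Matrix (Fin K) (Fin K) ℝ}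
    (J : Lp G P j) : IB G.R G.map_R (cM (Mm P j) (sm_Mm G P J)) :=
  ib_cM _ (fun p => (J.cs p).eig_eig) fun p t => by rw [Mm, qF_R, J.rot]; rfl

theorem ib_tF (G : Geo e D l) (P : PF E M K) :
    IB G.R G.map_R (cM (fun p => cplx (tF P p)) (sm_cplx (sm_tF G P))) :=
  ib_cM _ (fun p => by rw [← cplx_mul, tF_idem]) fun p t => by rw [tF_R]

theorem ib_Zm (G : Geo e D l) (P : PF E M K) : IB G.R G.map_R (cM (Zm G P) (sm_Zm G P)) :=
  ib_cM _ (fun p => (cor G P p).cs2.eig_eig) fun p t => Zm_R G P p t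

/-- the hermitian projector of `Z` -/
def Hm (G : Geo e D l) (P : PF E M K) : Matrix (Fin K) (Fin K) (CF (dPr e D)) :=
  cM (fun p => hp (Zm G P p)) (smM_hp (sm_Zm G P) fun p => (cor G P p).cs2.eig_eig)

/-- the classes at the other end -/
theorem qc_comp (G : Geo e D l) {a : Pr e D → Matrix (Fin K) (Fin K) ℂ} (ha : SmM (dPr e D) a)
    (h1 : IB G.R G.map_R (cM a ha))
    (h2 : IB G.R G.map_R (cM (fun p => a (G.Th p)) (ha.comp G.map_Th))) (k : ℕ) :
    h2.qc k = Cx.mapR (hbPull G.map_Th G.Th_R : Hb G.R G.map_R →+* Hb G.R G.map_R) (h1.qc k) := by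
  rw [← qc_pull G.map_Th G.Th_R h1 k]
  exact IB.qc_congr _ _ (map_pullC_cM ha G.map_Th).symm k

/-- **the bundles over `V = V₂(P)`**: the first Chern class `z` of the second line and the classes
of the tangent bundle are the only inputs -/
theorem bun (G : Geo e D l) (hl : l = 3) (P : PF E M K)
    {j : Pr e D → Matrix (Fin K) (Fin K) ℝ} (J : Lp G P j) {N : ℕ} {c : ℝ}
    {x1 x2 z : Hb G.R G.map_R} (hz : (ib_Mm G P J).qc 1 ^ 2 = Cx.of (z ^ 2))
    (hz' : hbPull G.map_Th G.Th_R z ^ 2 = z ^ 2)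
    (ht : ∀ k, 1 ≤ k → k ≤ N → (ib_tF G P).qc (2 * k) = Cx.of (S2X.tau N c k • x1 ^ k))
    (hx : hbPull G.map_Th G.Th_R x1 = x2) :
    Bun G.R G.map_R N c x1 x2 (qm G.R G.map_R (yB G P)) z
      (rM (tF P) (sm_tF G P)) (rM (pF P) (sm_pF G P)) (rM (tB P) (sm_tB G P))
      (rM (pB P) (sm_pB G P)) (cM (Lm P) (sm_Lm P)) (cM (Mm P j) (sm_Mm G P J))
      (cM (Wf G P) (sm_Wf G P)) (cM (fun p => Lm P (G.Th p)) ((sm_Lm P).comp G.map_Th))
      (cM (fun p => Mm P j (G.Th p)) ((sm_Mm G P J).comp G.map_Th)) (cM (Zm G P) (sm_Zm G P))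
      (Hm G P) (cM (Lm P) (sm_Lm P)) (cM (ka G P) (sm_ka G P)) (cM (la G P) (sm_la G P)) where
  s1 := (spl_F G P).split (fl_F G hl P J) (sm_tF G P) (sm_pF G P) (sm_Lm P) (sm_Mm G P J)
    (sm_Wf G P)
  s2 := (spl_B G P).split (fl_B G hl P J) (sm_tB G P) (sm_pB G P) ((sm_Lm P).comp G.map_Th)
    ((sm_Mm G P J).comp G.map_Th) (sm_Zm G P)
  ibH := ib_hp (sm_Zm G P) (fun p => (cor G P p).cs2.eig_eig) fun p t => Zm_R G P p t
  herH := herm_hp (sm_Zm G P) fun p => (cor G P p).cs2.eig_eig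
  ZH := cM_mul_hp (sm_Zm G P) fun p => (cor G P p).cs2.eig_eig
  HZ := hp_mul_cM (sm_Zm G P) fun p => (cor G P p).cs2.eig_eig
  ibL := ib_Lm G P
  oneL := rankOne_cM (sm_Lm P) (Lm_idem P) (trace_Lm P)
  eva := ev_cM _
  evb := ev_cM _
  basa := basicM_cM _ fun p t => ka_R G P p t
  basb := basicM_cM _ fun p t => la_R G P p t
  ab := by
    rw [cM_mul]
    exact cM_congr _ _ fun p => ka_la G P p
  ba := by
    rw [cM_mul, kr_cM]
    exact cM_congr _ _ fun p => la_ka G P p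
  y0 := qc_Lm G P
  y1 := by
    have h1 := qc_Lm G P
    rw [Cx.of_pow', ← h1]
  y2 := by
    have h1 := qc_comp G (sm_Lm P) (ib_Lm G P) ((spl_B G P).split (fl_B G hl P J)
      (sm_tB G P) (sm_pB G P) ((sm_Lm P).comp G.map_Th) ((sm_Mm G P J).comp G.map_Th)
      (sm_Zm G P)).four.ibL 1
    rw [qc_Lm, mapR_of] at h1
    rw [h1, Cx.of_pow']
    congr 2
    exact hbPull_y G P
  z1 := hz
  z2 := by
    have h1 := qc_comp G (sm_Mm G P J) (ib_Mm G P J) ((spl_B G P).split (fl_B G hl P J)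
      (sm_tB G P) (sm_pB G P) ((sm_Lm P).comp G.map_Th) ((sm_Mm G P J).comp G.map_Th)
      (sm_Zm G P)).four.ibM 1
    rw [h1, ← map_pow, hz, mapR_of]
    congr 1
    exact (map_pow (hbPull G.map_Th G.Th_R) z 2).trans hz'
  t1 := fun k h1 h2 => by
    rw [← ht k h1 h2]
    exact IB.qc_congr _ _ (rM_map_of _) _
  t2 := fun k h1 h2 => by
    have h3 := qc_comp G (sm_cplx (sm_tF G P)) (ib_tF G P) (ib_cM _
      (fun p => by rw [← cplx_mul, tF_idem]) fun p t => by rw [G.Th_R, tF_R]) (2 * k)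
    rw [ht k h1 h2, mapR_of] at h3
    have h4 : hbPull G.map_Th G.Th_R (S2X.tau N c k • x1 ^ k) = S2X.tau N c k • x2 ^ k := by
      have h5 := (hbPull G.map_Th G.Th_R).toLinearMap.map_smul (S2X.tau N c k) (x1 ^ k)
      refine h5.trans ?_
      have h6 : hbPull G.map_Th G.Th_R (x1 ^ k) = x2 ^ k := by rw [map_pow, hx]
      exact congrArg _ h6
    refine (IB.qc_congr _ _ (rM_map_of _) _).trans (h3.trans (congrArg Cx.of h4))

/-- the rank of `Z` -/
theorem rankLE_Hm (G : Geo e D l) (P : PF E M K) {r : ℕ} (hr : finrank ℝ E = l + 1 + 2 * r) :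
    RankLE r (Hm G P) (fun p => hp (Zm G P p)) :=
  rankLE_hp (sm_Zm G P) (fun p => (cor G P p).cs2.eig_eig) (trace_Zm G P hr)

theorem trace_Hm (G : Geo e D l) (P : PF E M K) {r : ℕ} (hr : finrank ℝ E = l + 1 + 2 * r) :
    (trace (Hm G P)).re = algebraMap ℝ (Form (dPr e D)) r :=
  trace_hp_re (sm_Zm G P) (fun p => (cor G P p).cs2.eig_eig) (trace_Zm G P hr)

/-- **the end of the bundle argument**, with the classes of the second line and of the tangent
bundle as inputs -/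
theorem abs_lt_three (G : Geo e D l) (hl : l = 3) (P : PF E M K)
    {j : Pr e D → Matrix (Fin K) (Fin K) ℝ} (J : Lp G P j) {N : ℕ} (hN : 2 ≤ N)
    (hE : finrank ℝ E = 4 * N) {c : ℝ} (hc : c ≠ 0) {x1 x2 z : Hb G.R G.map_R}
    (hz : (ib_Mm G P J).qc 1 ^ 2 = Cx.of (z ^ 2)) (hz' : hbPull G.map_Th G.Th_R z ^ 2 = z ^ 2)
    (ht : ∀ k, 1 ≤ k → k ≤ N → (ib_tF G P).qc (2 * k) = Cx.of (S2X.tau N c k • x1 ^ k))
    (hx : hbPull G.map_Th G.Th_R x1 = x2)
    (hyz : qm G.R G.map_R (yB G P) * z = x1 - x2)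
    (hsq : qm G.R G.map_R (yB G P) ^ 2 + z ^ 2 = (2 * c) • (x1 + x2)) {κ : ℝ} (hκ : κ ≠ 0)
    {I : Hb G.R G.map_R →ₗ[ℝ] ℝ} (V : S2X.Val N κ x1 x2 (qm G.R G.map_R (yB G P)) z I) :
    |c| < 3 := by
  have hr : finrank ℝ E = l + 1 + 2 * (2 * N - 2) := by omega
  exact (bun G hl P J hz hz' ht hx).abs_lt_three hN hc hyz hsq (trace_Hm G P hr)
    (rankLE_Hm G P hr) hκ V

end

end Vale.Agent.P231.X3
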