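import Vale.Agent.P231.X3.Pen
import Vale.Agent.P231.ChW.FnM
import Vale.Agent.P231.WA.Inv
import Vale.Agent.P231.A3.Sq

/-!
# P231, stage 2, block X3 (part 7): the line `L` spanned by `v - i w` and its connection form
-/

set_option maxSynthPendingDepth 3
set_option linter.unusedSectionVars false
set_option linter.unusedVariables false

open Bundle Manifold Set Filter Module Matrix
open scoped ContDiff Manifold Topology Real

namespace Vale.Agent.P231.X3

noncomputable section

open Vale.Agent.P234 Vale.Agent.P231 Vale.Agent.P231.Fm Vale.Agent.P231.W Vale.Agent.P231.WR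
  Vale.Agent.P231.ChW

/-! ### the connection form of a rotating frame -/

section Rot

variable {X : Type*} {dX : Dif X} {n : Type*} [Fintype n] [DecidableEq n]

theorem fr_d_val {f : X → ℝ} (hf : SmF dX f) {E' : Type} [NormedAddCommGroup E']
    [NormedSpace ℝ E'] [FiniteDimensional ℝ E'] {u : E' → X} {x : E'} (h : dX.At u x) :
    (fr f hf).d.val u x = dx (fderiv ℝ (fun s => f (u s)) x) := by
  rw [Form.d_val _ h]
  have h1 : (fr f hf).val u =ᶠ[𝓝 x] Fm.fn (fun y => f (u y)) := by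
    filter_upwards [dX.open' h] with y hy
    exact fr_val f hf hy
  rw [extd_congr h1, extd_fn (hf.sm h).differentiableAt]

theorem sm_snd_comp {f : ℝ → ℝ} (hf : ContDiff ℝ ∞ f) :
    SmF (dX.prod (Dif.lin ℝ)) (fun q : X × ℝ => f q.2) := by
  refine SmF.of ?_
  intro E' _ _ _ u x h
  exact Sm.comp (f := f) (g := fun s => (u s).2) (Sm.of_contDiff hf _) h.2

/-- the differential of a function of `t` -/
theorem d_fr_snd {f f' : ℝ → ℝ} (hf : ContDiff ℝ ∞ f) (hf' : ContDiff ℝ ∞ f')
    (h : ∀ t, HasDerivAt f (f' t) t) :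
    (fr (D := dX.prod (Dif.lin ℝ)) (fun q : X × ℝ => f q.2) (sm_snd_comp hf)).d =
      fr (fun q : X × ℝ => f' q.2) (sm_snd_comp hf') * dt := by
  refine Form.ext_val fun E' _ _ _ u x hu => ?_
  have h2 : Sm (fun s => (u s).2) x := hu.2
  have h3 : DifferentiableAt ℝ (fun s => (u s).2) x := h2.differentiableAt
  rw [Form.mul_val, fr_val _ _ hu, fr_d_val _ hu, WA.dt_val hu]
  have e3 : fderiv ℝ (fun s => f (u s).2) x = f' (u x).2 • fderiv ℝ (fun s => (u s).2) x := by
    have h4 := (h (u x).2).comp_hasFDerivAt x h3.hasFDerivAt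
    exact h4.fderiv
  rw [e3, map_smul, Algebra.smul_def]

theorem rot_term {c s v w dv dw t : Form dX} (hc : c.sg = c) (hs : s.sg = s) (hv : v.sg = v)
    (hw : w.sg = w) : (c * w - s * v) * (c * dv + s * dw + (c * w - s * v) * t) =
      c * c * (w * dv) - s * s * (v * dw) + c * s * (w * dw) - c * s * (v * dv) +
      (c * c * (w * w) + s * s * (v * v) - (c * s + c * s) * (w * v)) * t := by
  have c1 : ∀ x, w * (c * x) = c * (w * x) := fun x => by
    rw [← mul_assoc, Form.mul_comm_of_even hw, mul_assoc]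
  have c2 : ∀ x, w * (s * x) = s * (w * x) := fun x => by
    rw [← mul_assoc, Form.mul_comm_of_even hw, mul_assoc]
  have c3 : ∀ x, v * (c * x) = c * (v * x) := fun x => by
    rw [← mul_assoc, Form.mul_comm_of_even hv, mul_assoc]
  have c4 : ∀ x, v * (s * x) = s * (v * x) := fun x => by
    rw [← mul_assoc, Form.mul_comm_of_even hv, mul_assoc]
  have c5 : ∀ x, s * (c * x) = c * (s * x) := fun x => by
    rw [← mul_assoc, Form.mul_comm_of_even hs, mul_assoc]
  have c6 : ∀ x, v * (w * x) = w * (v * x) := fun x => by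
    rw [← mul_assoc, Form.mul_comm_of_even hv, mul_assoc]
  simp only [mul_add, mul_sub, add_mul, sub_mul, mul_assoc, c1, c2, c3, c4, c5, c6]
  abel

/-- **the connection form of a rotating frame** -/
theorem conn_rot {V Wv : X → n → ℝ} (hV : ∀ i, SmF dX (fun x => V x i))
    (hW : ∀ i, SmF dX (fun x => Wv x i)) (h1 : ∀ x, ∑ i, V x i * V x i = 1)
    (h2 : ∀ x, ∑ i, Wv x i * Wv x i = 1) (h3 : ∀ x, ∑ i, Wv x i * V x i = 0)
    {Φ : X × ℝ → X} (hΦ : (dX.prod (Dif.lin ℝ)).Map dX Φ)
    (hV' : ∀ x t i, V (Φ (x, t)) i = Real.cos t * V x i + Real.sin t * Wv x i)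
    (hW' : ∀ x t i, Wv (Φ (x, t)) i = -Real.sin t * V x i + Real.cos t * Wv x i) :
    Form.pull Φ hΦ (conn hV hW) = pr (conn hV hW) + dt := by
  set v : n → Form dX := fun i => fr _ (hV i) with hv
  set w : n → Form dX := fun i => fr _ (hW i) with hw
  have ev : ∀ i, (v i).sg = v i := fun i => sg_fr _
  have ew : ∀ i, (w i).sg = w i := fun i => sg_fr _
  have vv : ∑ i, v i * v i = 1 := by
    have := fr_sum (D := dX) Finset.univ (f := fun i x => V x i * V x i)
      fun i => (hV i).mul (hV i)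
    rw [← fr_one, show (∑ i, v i * v i) = ∑ i, fr _ ((hV i).mul (hV i)) from
      Finset.sum_congr rfl fun i _ => (fr_mul _ _).symm, ← this]
    exact fr_congr _ _ h1
  have ww : ∑ i, w i * w i = 1 := by
    have := fr_sum (D := dX) Finset.univ (f := fun i x => Wv x i * Wv x i)
      fun i => (hW i).mul (hW i)
    rw [← fr_one, show (∑ i, w i * w i) = ∑ i, fr _ ((hW i).mul (hW i)) from
      Finset.sum_congr rfl fun i _ => (fr_mul _ _).symm, ← this]
    exact fr_congr _ _ h2
  have wv : ∑ i, w i * v i = 0 := by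
    have := fr_sum (D := dX) Finset.univ (f := fun i x => Wv x i * V x i)
      fun i => (hW i).mul (hV i)
    rw [← fr_zero, show (∑ i, w i * v i) = ∑ i, fr _ ((hW i).mul (hV i)) from
      Finset.sum_congr rfl fun i _ => (fr_mul _ _).symm, ← this]
    exact fr_congr _ _ h3
  have half : ∀ a : Form dX, a + a = 0 → a = 0 := fun a ha => by
    have h2 : (2 : ℝ) • a = 0 := by rw [two_smul, ha]
    exact (smul_eq_zero.1 h2).resolve_left two_ne_zero
  have dsum : ∀ f : n → Form dX, (∑ i, f i).d = ∑ i, (f i).d := fun f =>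
    map_sum (GDA.d (A := Form dX)) _ _
  have vdv : ∑ i, v i * (v i).d = 0 := by
    refine half _ ?_
    have h4 := congrArg Form.d vv
    rw [dsum, Form.d_one] at h4
    rw [← Finset.sum_add_distrib, ← h4]
    refine Finset.sum_congr rfl fun i _ => ?_
    rw [Form.d_mul, ev, Form.mul_comm_of_even (ev i)]
  have wdw : ∑ i, w i * (w i).d = 0 := by
    refine half _ ?_
    have h4 := congrArg Form.d ww
    rw [dsum, Form.d_one] at h4
    rw [← Finset.sum_add_distrib, ← h4]
    refine Finset.sum_congr rfl fun i _ => ?_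
    rw [Form.d_mul, ew, Form.mul_comm_of_even (ew i)]
  have vdw : ∑ i, v i * (w i).d = -∑ i, w i * (v i).d := by
    have h4 := congrArg Form.d wv
    rw [dsum, Form.d_zero] at h4
    refine eq_neg_of_add_eq_zero_left ?_
    rw [← Finset.sum_add_distrib, ← h4]
    refine Finset.sum_congr rfl fun i _ => ?_
    rw [Form.d_mul, ew, Form.mul_comm_of_even (ev i) (w i).d]
  -- on the cylinder
  let p : Form dX →ₐ[ℝ] Form (dX.prod (Dif.lin ℝ)) :=
    Form.pullA (Prod.fst : X × ℝ → X) Dif.map_fst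
  have pd : ∀ a : Form dX, p a.d = (p a).d := fun a => Form.pull_d _ Dif.map_fst a
  have psg : ∀ a : Form dX, (p a).sg = p a.sg := fun a => (Form.pull_sg _ Dif.map_fst a).symm
  set c : Form (dX.prod (Dif.lin ℝ)) :=
    fr (fun q : X × ℝ => Real.cos q.2) (sm_snd_comp Real.contDiff_cos) with hc
  set s : Form (dX.prod (Dif.lin ℝ)) :=
    fr (fun q : X × ℝ => Real.sin q.2) (sm_snd_comp Real.contDiff_sin) with hs
  have hc0 : c.sg = c := sg_fr _
  have hs0 : s.sg = s := sg_fr _
  have hcd : c.d = -(s * dt) := by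
    have h5 := d_fr_snd (dX := dX) (f := Real.cos) (f' := fun t => -Real.sin t)
      Real.contDiff_cos Real.contDiff_sin.neg Real.hasDerivAt_cos
    rw [hc, h5, hs, ← neg_mul, ← fr_neg]
  have hsd : s.d = c * dt := d_fr_snd (dX := dX) (f := Real.sin) (f' := Real.cos)
      Real.contDiff_sin Real.contDiff_cos Real.hasDerivAt_sin
  have hcs : c * c + s * s = 1 := by
    rw [hc, hs, ← fr_mul, ← fr_mul, ← fr_add, ← fr_one]
    refine fr_congr _ _ fun q => ?_
    have := Real.sin_sq_add_cos_sq q.2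
    nlinarith
  have hpv : ∀ i, p (v i) = fr (fun q : X × ℝ => V q.1 i) ((hV i).comp Dif.map_fst) :=
    fun i => pull_fr (hV i) Dif.map_fst
  have hpw : ∀ i, p (w i) = fr (fun q : X × ℝ => Wv q.1 i) ((hW i).comp Dif.map_fst) :=
    fun i => pull_fr (hW i) Dif.map_fst
  have hΦv : ∀ i, Form.pull Φ hΦ (v i) = c * p (v i) + s * p (w i) := by
    intro i
    rw [hpv, hpw, hc, hs, ← fr_mul, ← fr_mul, ← fr_add]
    exact (pull_fr (hV i) hΦ).trans (fr_congr _ _ fun q => hV' q.1 q.2 i)
  have hΦw : ∀ i, Form.pull Φ hΦ (w i) = c * p (w i) - s * p (v i) := by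
    intro i
    rw [hpv, hpw, hc, hs, ← fr_mul, ← fr_mul, ← fr_sub]
    refine (pull_fr (hW i) hΦ).trans (fr_congr _ _ fun q => ?_)
    change Wv (Φ (q.1, q.2)) i = _
    rw [hW' q.1 q.2 i]
    ring
  have hΦd : ∀ i, Form.pull Φ hΦ (v i).d =
      c * p (v i).d + s * p (w i).d + (c * p (w i) - s * p (v i)) * dt := by
    intro i
    have e1 : p (v i) * dt = dt * p (v i) :=
      Form.mul_comm_of_even ((psg _).trans (by rw [ev])) _
    have e2 : p (w i) * dt = dt * p (w i) :=
      Form.mul_comm_of_even ((psg _).trans (by rw [ew])) _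
    rw [Form.pull_d, hΦv, Form.d_add, Form.d_mul, Form.d_mul, hc0, hs0, hcd, hsd, pd, pd]
    simp only [neg_mul, sub_mul, mul_assoc, e1, e2]
    abel
  have hterm : ∀ i, Form.pull Φ hΦ (w i) * Form.pull Φ hΦ (v i).d =
      c * c * p (w i * (v i).d) - s * s * p (v i * (w i).d) + c * s * p (w i * (w i).d) -
      c * s * p (v i * (v i).d) +
      (c * c * p (w i * w i) + s * s * p (v i * v i) - (c * s + c * s) * p (w i * v i)) * dt := by
    intro i
    rw [hΦw, hΦd, rot_term hc0 hs0 ((psg _).trans (by rw [ev])) ((psg _).trans (by rw [ew]))]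
    simp only [map_mul]
  have e0 : Form.pull Φ hΦ (conn hV hW) =
      ∑ i, Form.pull Φ hΦ (w i) * Form.pull Φ hΦ (v i).d := by
    change Form.pullA Φ hΦ (∑ i, w i * (v i).d) = _
    rw [map_sum]
    exact Finset.sum_congr rfl fun i _ => map_mul (Form.pullA Φ hΦ) _ _
  rw [e0, Finset.sum_congr rfl fun i _ => hterm i]
  simp only [Finset.sum_add_distrib, Finset.sum_sub_distrib, ← Finset.sum_mul, ← Finset.mul_sum,
    ← map_sum]
  rw [vdv, wdw, vdw, vv, ww, wv]
  simp only [map_zero, map_one, map_neg, mul_zero, mul_one, mul_neg, sub_zero, add_zero,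
    sub_neg_eq_add]
  rw [← add_mul, hcs, one_mul, one_mul]
  rfl

theorem conn_sg {V Wv : X → n → ℝ} (hV : ∀ i, SmF dX (fun x => V x i))
    (hW : ∀ i, SmF dX (fun x => Wv x i)) : (conn hV hW).sg = -conn hV hW := by
  have h1 : (conn hV hW).sg = ∑ i, (fr _ (hW i) * (fr _ (hV i)).d).sg :=
    map_sum (GDA.sg (A := Form dX)) _ _
  rw [h1, conn, ← Finset.sum_neg_distrib]
  refine Finset.sum_congr rfl fun i _ => ?_
  have h2 := Form.d_sg (fr (fun x => V x i) (hV i))
  rw [sg_fr] at h2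
  rw [Form.sg_mul, sg_fr, eq_neg_iff_add_eq_zero.1 h2 |> eq_neg_of_add_eq_zero_right, mul_neg]

end Rot

/-! ### the frame `(v, w)` -/

section Pairs

variable {E : Type*} [NormedAddCommGroup E] [NormedSpace ℝ E] [FiniteDimensional ℝ E]
  {M : Type*} [MetricSpace M] [ChartedSpace E M] [IsManifold 𝓘(ℝ, E) ∞ M]
  [RiemannianBundle (fun x : M => TangentSpace 𝓘(ℝ, E) x)]
  [IsContMDiffRiemannianBundle 𝓘(ℝ, E) ∞ E (fun x : M => TangentSpace 𝓘(ℝ, E) x)]
  [CompactSpace M] [ConnectedSpace M] [IsRiemannianManifold 𝓘(ℝ, E) M]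
  {e : ∀ x : M, TangentSpace 𝓘(ℝ, E) x → M} {K : ℕ} {D : ℝ} {l : ℕ}

/-- the first vector -/
def vv (P : PF E M K) (p : Pr e D) (i : Fin K) : ℝ := P.em (foot p.v) (vec' p.v) i

/-- the second vector -/
def ww (P : PF E M K) (p : Pr e D) (i : Fin K) : ℝ := P.em (foot p.v) (vec' p.w) i

theorem vv_vv (P : PF E M K) (p : Pr e D) : ∑ i, vv P p i * vv P p i = 1 := by
  rw [← ip_vec' p.v]
  exact (P.ip_eq _ _ _).symm

theorem ww_ww (P : PF E M K) (p : Pr e D) : ∑ i, ww P p i * ww P p i = 1 := by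
  rw [← p.isL.ip_self]
  exact (P.ip_eq _ _ _).symm

theorem vv_ww (P : PF E M K) (p : Pr e D) : ∑ i, vv P p i * ww P p i = 0 := by
  rw [← p.isL.orth]
  exact (P.ip_eq _ _ _).symm

theorem ww_vv (P : PF E M K) (p : Pr e D) : ∑ i, ww P p i * vv P p i = 0 := by
  rw [← vv_ww P p]
  exact Finset.sum_congr rfl fun i _ => mul_comm _ _

theorem sm_vv (P : PF E M K) (i : Fin K) : SmF (dPr e D) (fun p => vv P p i) := by
  refine SmF.of ?_
  intro E' _ _ _ u x h
  exact P.sm_em (at_vec_tb (map_v h)) i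

theorem sm_ww (P : PF E M K) (i : Fin K) : SmF (dPr e D) (fun p => ww P p i) := by
  refine SmF.of ?_
  intro E' _ _ _ u x h
  have h1 : (dTM E M).At (fun s => tb (foot (u s).v) (vec' (u s).w)) x :=
    (dTM E M).congr (at_vec_tb (map_w h))
      (Eventually.of_forall fun s => tb_congr (u s).isL.foot_eq rfl)
  exact P.sm_em h1 i

theorem vv_R (G : Geo e D l) (P : PF E M K) (p : Pr e D) (t : ℝ) (i : Fin K) :
    vv P (G.R (p, t)) i = Real.cos t * vv P p i + Real.sin t * ww P p i := by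
  have h1 := congrFun (P.em_add (foot p.v) (Real.cos t • vec' p.v) (Real.sin t • vec' p.w)) i
  rw [P.em_smul, P.em_smul] at h1
  exact h1

theorem ww_R (G : Geo e D l) (P : PF E M K) (p : Pr e D) (t : ℝ) (i : Fin K) :
    ww P (G.R (p, t)) i = -Real.sin t * vv P p i + Real.cos t * ww P p i := by
  have h1 := congrFun (P.em_add (foot p.v) ((-Real.sin t) • vec' p.v)
    (Real.cos t • vec' p.w)) i
  rw [P.em_smul, P.em_smul] at h1
  exact h1

/-- the unit vector `(v - i w) / √2` -/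
def uv (P : PF E M K) (p : Pr e D) : Fin K → ℂ := uu (vv P p) (ww P p)

theorem uni_uv (P : PF E M K) (p : Pr e D) : Uni (uv P p) := uni_uu (vv_vv P p) (ww_ww P p)

theorem uv_R (G : Geo e D l) (P : PF E M K) (p : Pr e D) (t : ℝ) :
    uv P (G.R (p, t)) = fun i => Cor.ph t * uv P p i := by
  rw [uv, uv, ← uu_rot]
  congr 1
  · funext i
    exact vv_R G P p t i
  · funext i
    exact ww_R G P p t i

theorem sm_uv (P : PF E M K) (i : Fin K) : SmF (dPr e D) (fun p => uv P p i) :=
  (SmF.const _ (((Real.sqrt 2)⁻¹ : ℝ) : ℂ)).mul ((sm_vv P i).ofReal.sub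
    ((SmF.const _ Complex.I).mul (sm_ww P i).ofReal))

/-- the projector to the line -/
def Lm (P : PF E M K) (p : Pr e D) : Matrix (Fin K) (Fin K) ℂ := lin (uv P p)

theorem sm_Lm (P : PF E M K) : SmM (dPr e D) (Lm P) := fun i j =>
  (sm_uv P i).mul (sm_uv P j).conj

theorem Lm_R (G : Geo e D l) (P : PF E M K) (p : Pr e D) (t : ℝ) :
    Lm P (G.R (p, t)) = Lm P p := by
  rw [Lm, uv_R, lin_phase _ (ph_conj t)]
  rfl

theorem Lm_idem (P : PF E M K) (p : Pr e D) : Lm P p * Lm P p = Lm P p := lin_lin (uni_uv P p)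

theorem trace_Lm (P : PF E M K) (p : Pr e D) : trace (Lm P p) = 1 := trace_lin (uni_uv P p)

/-- the projector to the span of `v` and `w` -/
def lF (P : PF E M K) (p : Pr e D) : Matrix (Fin K) (Fin K) ℝ :=
  fun i j => vv P p i * vv P p j + ww P p i * ww P p j

theorem Lm_add (P : PF E M K) (p : Pr e D) :
    Lm P p + (Lm P p).map (starRingEnd ℂ) = cplx (lF P p) := lin_uu_add _ _

theorem Lm_conj (P : PF E M K) (p : Pr e D) :
    Lm P p * (Lm P p).map (starRingEnd ℂ) = 0 := lin_uu_mul (vv_vv P p) (ww_ww P p) (vv_ww P p)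

theorem lF_tr (P : PF E M K) (p : Pr e D) : (lF P p)ᵀ = lF P p := by
  ext i j
  simp only [lF, Matrix.transpose_apply]
  ring

theorem pF_vv (P : PF E M K) (p : Pr e D) : pF P p *ᵥ vv P p = vv P p := by
  have h1 := P.mat_mulVec (foot p.v) (foot p.v) (prPL e D p.v) (vec' p.v)
  have h2 : prPL e D p.v (vec' p.v) = vec' p.v := prP_of_mem (self_mem_Pl D p.v)
  rw [h2] at h1
  exact h1

theorem pF_ww (P : PF E M K) (p : Pr e D) : pF P p *ᵥ ww P p = ww P p := by
  have h1 := P.mat_mulVec (foot p.v) (foot p.v) (prPL e D p.v) (vec' p.w)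
  have h2 : prPL e D p.v (vec' p.w) = vec' p.w := by
    change prP e D p.v (vec' p.w) = vec' p.w
    rw [← prP_w, prP_of_mem (self_mem_Pl D p.w)]
  rw [h2] at h1
  exact h1

theorem pF_lF (P : PF E M K) (p : Pr e D) : pF P p * lF P p = lF P p := by
  ext i j
  have h1 := congrFun (pF_vv P p) i
  have h2 := congrFun (pF_ww P p) i
  simp only [Matrix.mulVec, dotProduct] at h1 h2
  simp only [Matrix.mul_apply, lF, mul_add, Finset.sum_add_distrib]
  simp only [← mul_assoc, ← Finset.sum_mul]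
  rw [h1, h2]

theorem lF_pF (P : PF E M K) (p : Pr e D) : lF P p * pF P p = lF P p := by
  have h1 := congrArg Matrix.transpose (pF_lF P p)
  rwa [Matrix.transpose_mul, lF_tr, pF_tr] at h1

theorem lF_idem (P : PF E M K) (p : Pr e D) : lF P p * lF P p = lF P p := by
  ext i j
  simp only [Matrix.mul_apply, lF]
  have h1 : ∀ k, (vv P p i * vv P p k + ww P p i * ww P p k) *
      (vv P p k * vv P p j + ww P p k * ww P p j) =
      (vv P p k * vv P p k) * (vv P p i * vv P p j) + (vv P p k * ww P p k) * (vv P p i * ww P p j) +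
      ((vv P p k * ww P p k) * (ww P p i * vv P p j) +
        (ww P p k * ww P p k) * (ww P p i * ww P p j)) := fun k => by ring
  simp only [h1, Finset.sum_add_distrib, ← Finset.sum_mul]
  rw [vv_vv, vv_ww, ww_ww]
  ring

theorem sm_lF (P : PF E M K) : SmM (dPr e D) (lF P) := fun i j =>
  ((sm_vv P i).mul (sm_vv P j)).add ((sm_ww P i).mul (sm_ww P j))

theorem trace_lF (P : PF E M K) (p : Pr e D) : trace (lF P p) = 2 := by
  simp only [Matrix.trace, Matrix.diag, lF, Finset.sum_add_distrib]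
  rw [vv_vv, ww_ww]
  norm_num

theorem lF_R (G : Geo e D l) (P : PF E M K) (p : Pr e D) (t : ℝ) :
    lF P (G.R (p, t)) = lF P p := by
  ext i j
  have h := Real.sin_sq_add_cos_sq t
  simp only [lF, vv_R, ww_R]
  linear_combination (vv P p i * vv P p j + ww P p i * ww P p j) * h

/-- the projector to the complement of `v` and `w` in the plane -/
def qF (P : PF E M K) (p : Pr e D) : Matrix (Fin K) (Fin K) ℝ := pF P p - lF P p

theorem qF_idem (P : PF E M K) (p : Pr e D) : qF P p * qF P p = qF P p := by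
  rw [qF, Matrix.mul_sub, Matrix.sub_mul, Matrix.sub_mul, pF_idem, lF_pF, pF_lF, lF_idem]
  abel

theorem lF_qF (P : PF E M K) (p : Pr e D) : lF P p * qF P p = 0 := by
  rw [qF, Matrix.mul_sub, lF_pF, lF_idem, sub_self]

theorem qF_lF (P : PF E M K) (p : Pr e D) : qF P p * lF P p = 0 := by
  rw [qF, Matrix.sub_mul, pF_lF, lF_idem, sub_self]

theorem qF_tr (P : PF E M K) (p : Pr e D) : (qF P p)ᵀ = qF P p := by
  rw [qF, Matrix.transpose_sub, pF_tr, lF_tr]

theorem sm_qF (G : Geo e D l) (P : PF E M K) : SmM (dPr e D) (qF P) := (sm_pF G P).sub (sm_lF P)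

theorem qF_R (G : Geo e D l) (P : PF E M K) (p : Pr e D) (t : ℝ) :
    qF P (G.R (p, t)) = qF P p := by
  rw [qF, pF_R, lF_R]
  rfl

/-! ### the connection form -/

/-- the connection form `ν = ⟨w, dv⟩` -/
def nu (e : ∀ x : M, TangentSpace 𝓘(ℝ, E) x → M) (D : ℝ) (P : PF E M K) : Form (dPr e D) :=
  conn (sm_vv P) (sm_ww P)

theorem nu_sg (P : PF E M K) : (nu e D P).sg = -nu e D P := conn_sg _ _

theorem nu_R (G : Geo e D l) (P : PF E M K) :
    Form.pull G.R G.map_R (nu e D P) = pr (nu e D P) + dt :=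
  conn_rot (sm_vv P) (sm_ww P) (vv_vv P) (ww_ww P) (ww_vv P) G.map_R
    (fun p t i => vv_R G P p t i) (fun p t i => ww_R G P p t i)

theorem Lm_apply (P : PF E M K) (p : Pr e D) (i j : Fin K) : Lm P p i j =
    (1 / 2 : ℂ) * ((vv P p i - Complex.I * ww P p i) * (vv P p j + Complex.I * ww P p j)) := by
  have h2 : (Real.sqrt 2)⁻¹ * (Real.sqrt 2)⁻¹ = (1 / 2 : ℝ) := by
    rw [← mul_inv, Real.mul_self_sqrt (by norm_num)]
    norm_num
  have h3 : (((Real.sqrt 2)⁻¹ : ℝ) : ℂ) * (((Real.sqrt 2)⁻¹ : ℝ) : ℂ) = 1 / 2 := by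
    rw [← Complex.ofReal_mul, h2]
    norm_num
  simp only [Lm, lin, uv, uu, map_mul, map_sub, Complex.conj_ofReal, Complex.conj_I]
  rw [← h3]
  ring

/-- the first Chern form of the line -/
theorem sC_Lm (P : PF E M K) : sC 1 (cM (Lm P) (sm_Lm P)) =
    Cx.of (-(1 / (2 * Real.pi)) • (nu e D P).d) :=
  sC_line (sm_vv P) (sm_ww P) (vv_vv P) (ww_ww P) (ww_vv P) (sm_Lm P) (Lm_apply P)

end Pairs

end

end Vale.Agent.P231.X3
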