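import Vale.Agent.P231.S2T.Deg

/-!
# P231, stage 2: the class forms are homogeneous
-/

set_option linter.unusedSectionVars false
set_option linter.unusedVariables false

open Matrix Set Filter Topology
open scoped ContDiff

namespace Vale.Agent.P231.X3

open Fm W ChW H584 S2T

variable {X : Type*} {D : Dif X}
variable {n : Type*} [Fintype n] [DecidableEq n]

/-- the class forms are homogeneous -/
theorem degC_sC {a : X → Matrix n n ℂ} (ha : SmM D a) (k : ℕ) : DegC (2 * k) (sC k (cM a ha)) :=
  ((degM_cM ha).ch k).smul _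

theorem isDeg_sC {a : X → Matrix n n ℂ} (ha : SmM D a) (k : ℕ) :
    Form.IsDeg (2 * k) (sC k (cM a ha)).re := (degC_sC ha k).re

theorem isDeg_sC_im {a : X → Matrix n n ℂ} (ha : SmM D a) (k : ℕ) :
    Form.IsDeg (2 * k) (sC k (cM a ha)).im := (degC_sC ha k).im

end Vale.Agent.P231.X3
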