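import Vale.Agent.P231.S2T.Inst
import Vale.Agent.P231.X3.DegS
import Vale.Agent.P231.X3.Dat

/-!
# P231, stage 2: the class forms of the plane come from the unit tangent bundle
-/

set_option maxSynthPendingDepth 3
set_option linter.unusedSectionVars false
set_option linter.unusedVariables false

open Bundle Manifold Set Filter Module Matrix
open scoped ContDiff Manifold Topology Real

namespace Vale.Agent.P231.X3

noncomputable section

open Vale.Agent.P234 Vale.Agent.P231 Vale.Agent.P231.Fm Vale.Agent.P231.W Vale.Agent.P231.WR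
  Vale.Agent.P231.ChW Vale.Agent.P231.S2T

variable {E : Type*} [NormedAddCommGroup E] [NormedSpace ℝ E] [FiniteDimensional ℝ E]
  {M : Type*} [MetricSpace M] [ChartedSpace E M] [IsManifold 𝓘(ℝ, E) ∞ M]
  [RiemannianBundle (fun x : M => TangentSpace 𝓘(ℝ, E) x)]
  [IsContMDiffRiemannianBundle 𝓘(ℝ, E) ∞ E (fun x : M => TangentSpace 𝓘(ℝ, E) x)]
  [CompactSpace M] [ConnectedSpace M] [IsRiemannianManifold 𝓘(ℝ, E) M]
  {e : ∀ x : M, TangentSpace 𝓘(ℝ, E) x → M} {K : ℕ} {D : ℝ} {l : ℕ}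

/-- the plane over the unit tangent bundle -/
def pU (e : ∀ x : M, TangentSpace 𝓘(ℝ, E) x → M) (D : ℝ) (P : PF E M K) (v : UT E M) :
    Matrix (Fin K) (Fin K) ℝ := P.mat (foot v) (foot v) (prPL e D v)

theorem sm_pU (G : Geo e D l) (P : PF E M K) : SmM (dUT E M) (pU e D P) :=
  P.smM_mat (fun h => W.map_foot h)
    ⟨fun hu ha => at_prP G.F G.hD G.hB G.hdiam G.hP hu ha⟩

theorem pU_idem (P : PF E M K) (v : UT E M) : pU e D P v * pU e D P v = pU e D P v := by
  rw [pU, P.mat_mul]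
  congr 1
  exact LinearMap.ext fun a => prP_prP D v a

/-- the class forms of the plane over the unit tangent bundle -/
def ucl (G : Geo e D l) (P : PF E M K) (k : ℕ) : Form (dUT E M) := sF k (cR (pU e D P) (sm_pU G P))

theorem ucl_d (G : Geo e D l) (P : PF E M K) (k : ℕ) : (ucl G P k).d = 0 :=
  sF_closed ⟨ev_cR _, cR_mul _ _ _ (pU_idem P)⟩ k

theorem isDeg_ucl (G : Geo e D l) (P : PF E M K) (k : ℕ) : Form.IsDeg (2 * k) (ucl G P k) :=
  isDeg_sF_cR _ k

theorem pcl_eq (G : Geo e D l) (P : PF E M K) (k : ℕ) :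
    (pcl G P k : Form (dPr e D)) = Form.pull Pr.v map_v (ucl G P k) := by
  change sF k (cR (pF P) (sm_pF G P)) = _
  rw [ucl, ← IB.sF_pull, map_pullC_cR]
  rfl

/-- products of forms of the unit tangent bundle of high degree vanish on pairs -/
theorem pull_v_zero {m k : ℕ} (hm : finrank ℝ E = m + 1) (hk : 2 * m + 1 < k)
    {w : Form (dUT E M)} (hw : Form.IsDeg k w) :
    Form.pull (Pr.v : Pr e D → UT E M) map_v w = 0 := by
  have h0 : WA.DimLE (dUT E M) (2 * m + 1) := fun {E'} _ _ _ {u x} hu => WF.dimLE_UT E M hm hu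
  have h1 : w = 0 := h0.isDeg_eq_zero hk hw
  rw [h1]
  exact map_zero (Form.pullA Pr.v map_v)

/-- **the form `p`** of `S2X.Geo.exists_sq` -/
theorem exists_p (G : Geo e D l) (hl : l = 3) (P : PF E M K)
    {j : Pr e D → Matrix (Fin K) (Fin K) ℝ} (J : Lp G P j) {z : Hb G.R G.map_R}
    (hz : (ib_Mm G P J).qc 1 ^ 2 = Cx.of (z ^ 2)) :
    ∃ (p : H584.Bas G.R G.map_R) (τ : Form (dUT E M)),
      qm G.R G.map_R p = qm G.R G.map_R (yB G P) ^ 2 + z ^ 2 ∧
      (p : Form (dPr e D)) = Form.pull Pr.v map_v τ ∧ τ.d = 0 ∧ Form.IsDeg 4 τ := by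
  refine ⟨(1 / 2 : ℝ) • pcl G P 2, (1 / 2 : ℝ) • ucl G P 2, ?_, ?_, ?_, (isDeg_ucl G P 2).smul _⟩
  · have h0 : Split G.R G.map_R (rM (tF P) (sm_tF G P)) (rM (pF P) (sm_pF G P))
        (cM (Lm P) (sm_Lm P)) (cM (Mm P j) (sm_Mm G P J)) (cM (Wf G P) (sm_Wf G P)) :=
      (spl_F G P).split (fl_F G hl P J) (sm_tF G P) (sm_pF G P) (sm_Lm P) (sm_Mm G P J)
      (sm_Wf G P)
    have h1 := h0.four
    have hy : h1.ibL.qc 1 ^ 2 = Cx.of (qm G.R G.map_R (yB G P) ^ 2) := by
      have h2 := qc_Lm G P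
      rw [Cx.of_pow', ← h2]
    have h3 := pcl_four G P h1 hy hz 1
    rw [mul_one] at h3
    have h4 := (qm G.R G.map_R).toLinearMap.map_smul (1 / 2 : ℝ) (pcl G P 2)
    refine Eq.trans h4 ?_
    change (1 / 2 : ℝ) • qm G.R G.map_R (pcl G P 2) = _
    rw [h3, two_mul, ← two_smul ℝ, smul_smul, one_div, inv_mul_cancel₀ two_ne_zero, one_smul]
  · have h2 := map_smul (Form.pullA (Pr.v : Pr e D → UT E M) map_v) (1 / 2 : ℝ) (ucl G P 2)
    refine Eq.trans ?_ h2.symm
    change (1 / 2 : ℝ) • (pcl G P 2 : Form (dPr e D)) = _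
    rw [pcl_eq]
    rfl
  · rw [Form.d_smul, ucl_d, smul_zero]

/-- the products with the forms of the two end points vanish in the top degree -/
theorem p_mul_zero {N : ℕ} (hE : finrank ℝ E = 4 * N) (hN : 1 ≤ N) {f g τ : Form (dUT E M)}
    (hf : Form.IsDeg 4 f) (hg : Form.IsDeg 4 g) (hτ : Form.IsDeg 4 τ) {a b : ℕ}
    (hab : a + b + 1 = 2 * N) :
    Form.pull (Pr.v : Pr e D → UT E M) map_v f ^ a * Form.pull Pr.v map_v g ^ b *
      Form.pull Pr.v map_v τ = 0 := by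
  have h1 : Form.pull (Pr.v : Pr e D → UT E M) map_v (f ^ a * g ^ b * τ) =
      Form.pull (Pr.v : Pr e D → UT E M) map_v f ^ a * Form.pull Pr.v map_v g ^ b *
      Form.pull Pr.v map_v τ := by
    have h2 := map_mul (Form.pullA (Pr.v : Pr e D → UT E M) map_v) (f ^ a * g ^ b) τ
    have h3 := map_mul (Form.pullA (Pr.v : Pr e D → UT E M) map_v) (f ^ a) (g ^ b)
    have h4 := map_pow (Form.pullA (Pr.v : Pr e D → UT E M) map_v) f a
    have h5 := map_pow (Form.pullA (Pr.v : Pr e D → UT E M) map_v) g b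
    rw [h3, h4, h5] at h2
    exact h2
  refine Eq.trans h1.symm ?_
  exact pull_v_zero (m := 4 * N - 1) (k := 4 * a + 4 * b + 4) (by omega) (by omega)
    (((hf.pow a).mul (hg.pow b)).mul hτ)

end

end Vale.Agent.P231.X3
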