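import Vale.Agent.P231.X3.Op
import Vale.Agent.P231.X3.Cplx
import Vale.Agent.P231.WR.PenR

/-!
# P231, stage 2, block X3 (part 6): the matrices of the pencil over the space of pairs
-/

set_option maxSynthPendingDepth 3
set_option linter.unusedSectionVars false
set_option linter.unusedVariables false

open Bundle Manifold Set Filter Module Matrix
open scoped ContDiff Manifold Topology Real

namespace Vale.Agent.P231.X3

noncomputable section

open Vale.Agent.P234 Vale.Agent.P231 Vale.Agent.P231.Fm Vale.Agent.P231.W Vale.Agent.P231.WR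

variable {E : Type*} [NormedAddCommGroup E] [NormedSpace ℝ E] [FiniteDimensional ℝ E]
  {M : Type*} [MetricSpace M] [ChartedSpace E M] [IsManifold 𝓘(ℝ, E) ∞ M]
  [RiemannianBundle (fun x : M => TangentSpace 𝓘(ℝ, E) x)]
  [IsContMDiffRiemannianBundle 𝓘(ℝ, E) ∞ E (fun x : M => TangentSpace 𝓘(ℝ, E) x)]
  [CompactSpace M] [ConnectedSpace M] [IsRiemannianManifold 𝓘(ℝ, E) M]
  {e : ∀ x : M, TangentSpace 𝓘(ℝ, E) x → M} {K : ℕ}

/-- the geometric hypotheses -/
structure Geo (e : ∀ x : M, TangentSpace 𝓘(ℝ, E) x → M) (D : ℝ) (l : ℕ) : Prop where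
  F : Facts e
  hD : 0 < D
  hB : InjGE e D
  hdiam : ∀ p q : M, dist p q ≤ D
  hP : ∀ x y : M, dist x y = D → finrank ℝ (H775.Pl e D x y) = l + 1

variable {D : ℝ} {l : ℕ}

/-- the rotation flow -/
def Geo.R (G : Geo e D l) : Pr e D × ℝ → Pr e D := WR.R G.F G.hD G.hB G.hdiam

theorem Geo.map_R (G : Geo e D l) : ((dPr e D).prod (Dif.lin ℝ)).Map (dPr e D) G.R :=
  WR.map_R G.F G.hD G.hB G.hdiam

theorem Geo.isFlow_R (G : Geo e D l) : IsFlow (dPr e D) (2 * Real.pi) G.R :=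
  WR.isFlow_R G.F G.hD G.hB G.hdiam

theorem Geo.R_v (G : Geo e D l) (p : Pr e D) (t : ℝ) : (G.R (p, t)).v = rv p t := rfl

theorem Geo.R_w (G : Geo e D l) (p : Pr e D) (t : ℝ) : (G.R (p, t)).w = rw_ p t := rfl

theorem Geo.foot_R (G : Geo e D l) (p : Pr e D) (t : ℝ) : foot (G.R (p, t)).v = foot p.v := rfl

theorem Geo.bar_R (G : Geo e D l) (p : Pr e D) (t : ℝ) :
    bar e D (G.R (p, t)).v = bar e D p.v := bar_rv G.F G.hD G.hB G.hdiam p t

/-! ### raw linear maps -/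

/-- the projection to the plane -/
def prPL (e : ∀ x : M, TangentSpace 𝓘(ℝ, E) x → M) (D : ℝ) (v : UT E M) : E →ₗ[ℝ] E where
  toFun := prP e D v
  map_add' := prP_add D v
  map_smul' := prP_smul D v

/-- the projection to the plane at the far end -/
def prQL (e : ∀ x : M, TangentSpace 𝓘(ℝ, E) x → M) (D : ℝ) (v : UT E M) : E →ₗ[ℝ] E where
  toFun := prQ e D v
  map_add' := prQ_add D v
  map_smul' := prQ_smul D v

/-- the projection to the complement of the plane -/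
def nPL (e : ∀ x : M, TangentSpace 𝓘(ℝ, E) x → M) (D : ℝ) (v : UT E M) : E →ₗ[ℝ] E where
  toFun := nP e D v
  map_add' := nP_add D v
  map_smul' := nP_smul D v

/-- the projection to the complement of the plane at the far end -/
def nQL (e : ∀ x : M, TangentSpace 𝓘(ℝ, E) x → M) (D : ℝ) (v : UT E M) : E →ₗ[ℝ] E where
  toFun := nQ e D v
  map_add' := nQ_add D v
  map_smul' := nQ_smul D v

/-- the differential of the exponential map and the pencil -/
def BBl (G : Geo e D l) (v : UT E M) : E →ₗ[ℝ] E := BBL G.F G.hD G.hB G.hdiam v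

theorem BBl_apply (G : Geo e D l) (v : UT E M) (z : E) : BBl G v z = BB e D v z := rfl

/-! ### matrices -/

/-- the tangent space at the foot -/
def tF (P : PF E M K) (p : Pr e D) : Matrix (Fin K) (Fin K) ℝ := P.tm (foot p.v)

/-- the tangent space at the cut point -/
def tB (P : PF E M K) (p : Pr e D) : Matrix (Fin K) (Fin K) ℝ := P.tm (bar e D p.v)

/-- the plane at the foot -/
def pF (P : PF E M K) (p : Pr e D) : Matrix (Fin K) (Fin K) ℝ :=
  P.mat (foot p.v) (foot p.v) (prPL e D p.v)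

/-- the plane at the cut point -/
def pB (P : PF E M K) (p : Pr e D) : Matrix (Fin K) (Fin K) ℝ :=
  P.mat (bar e D p.v) (bar e D p.v) (prQL e D p.v)

/-- the normal space at the foot -/
def nF (P : PF E M K) (p : Pr e D) : Matrix (Fin K) (Fin K) ℝ :=
  P.mat (foot p.v) (foot p.v) (nPL e D p.v)

/-- the normal space at the cut point -/
def nB (P : PF E M K) (p : Pr e D) : Matrix (Fin K) (Fin K) ℝ :=
  P.mat (bar e D p.v) (bar e D p.v) (nQL e D p.v)

theorem nF_eq (P : PF E M K) (p : Pr e D) : nF P p = tF P p - pF P p := by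
  rw [nF, tF, pF, PF.tm, ← P.mat_sub]
  rfl

theorem nB_eq (P : PF E M K) (p : Pr e D) : nB P p = tB P p - pB P p := by
  rw [nB, tB, pB, PF.tm, ← P.mat_sub]
  rfl

theorem tF_idem (P : PF E M K) (p : Pr e D) : tF P p * tF P p = tF P p := P.tm_idem _
theorem tB_idem (P : PF E M K) (p : Pr e D) : tB P p * tB P p = tB P p := P.tm_idem _

theorem pF_idem (P : PF E M K) (p : Pr e D) : pF P p * pF P p = pF P p := by
  rw [pF, P.mat_mul]
  congr 1
  exact LinearMap.ext fun a => prP_prP D p.v a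

theorem pB_idem (P : PF E M K) (p : Pr e D) : pB P p * pB P p = pB P p := by
  rw [pB, P.mat_mul]
  congr 1
  exact LinearMap.ext fun a => prQ_prQ D p.v a

theorem nF_idem (P : PF E M K) (p : Pr e D) : nF P p * nF P p = nF P p := by
  rw [nF, P.mat_mul]
  congr 1
  exact LinearMap.ext fun a => nP_nP D p.v a

theorem nB_idem (P : PF E M K) (p : Pr e D) : nB P p * nB P p = nB P p := by
  rw [nB, P.mat_mul]
  congr 1
  exact LinearMap.ext fun a => nQ_nQ D p.v a

theorem pF_nF (P : PF E M K) (p : Pr e D) : pF P p * nF P p = 0 := by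
  rw [pF, nF, P.mat_mul, ← P.mat_zero (foot p.v) (foot p.v)]
  congr 1
  exact LinearMap.ext fun a => prP_nP D p.v a

theorem nF_pF (P : PF E M K) (p : Pr e D) : nF P p * pF P p = 0 := by
  rw [pF, nF, P.mat_mul, ← P.mat_zero (foot p.v) (foot p.v)]
  congr 1
  exact LinearMap.ext fun a => nP_prP D p.v a

theorem pB_nB (P : PF E M K) (p : Pr e D) : pB P p * nB P p = 0 := by
  rw [pB, nB, P.mat_mul, ← P.mat_zero (bar e D p.v) (bar e D p.v)]
  congr 1
  exact LinearMap.ext fun a => prQ_nQ D p.v a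

theorem nB_pB (P : PF E M K) (p : Pr e D) : nB P p * pB P p = 0 := by
  rw [pB, nB, P.mat_mul, ← P.mat_zero (bar e D p.v) (bar e D p.v)]
  congr 1
  exact LinearMap.ext fun a => nQ_prQ D p.v a

theorem tF_tr (P : PF E M K) (p : Pr e D) : (tF P p)ᵀ = tF P p := P.tm_transpose _
theorem tB_tr (P : PF E M K) (p : Pr e D) : (tB P p)ᵀ = tB P p := P.tm_transpose _

theorem pF_tr (P : PF E M K) (p : Pr e D) : (pF P p)ᵀ = pF P p :=
  P.mat_transpose _ _ fun a b => ip_prP D p.v a b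

theorem pB_tr (P : PF E M K) (p : Pr e D) : (pB P p)ᵀ = pB P p :=
  P.mat_transpose _ _ fun a b => ip_prQ D p.v a b

theorem nF_tr (P : PF E M K) (p : Pr e D) : (nF P p)ᵀ = nF P p :=
  P.mat_transpose _ _ fun a b => ip_nP D p.v a b

theorem nB_tr (P : PF E M K) (p : Pr e D) : (nB P p)ᵀ = nB P p :=
  P.mat_transpose _ _ fun a b => ip_nQ D p.v a b

/-- the pencil in the direction `v` -/
def b0 (G : Geo e D l) (P : PF E M K) (p : Pr e D) : Matrix (Fin K) (Fin K) ℝ :=
  P.mat (bar e D p.v) (foot p.v) (BBl G p.v)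

/-- the pencil in the direction `w` -/
def b1 (G : Geo e D l) (P : PF E M K) (p : Pr e D) : Matrix (Fin K) (Fin K) ℝ :=
  P.mat (bar e D p.v) (foot p.v) (BBl G p.w)

/-- the differential of the exponential map between the normal spaces -/
def ga (P : PF E M K) (p : Pr e D) : Matrix (Fin K) (Fin K) ℝ :=
  nB P p * P.mat (foot p.v) (bar e D p.v) (ADL e D p.v) * nF P p

/-! ### rotation -/

theorem mat_congr (P : PF E M K) {x x' y y' : M} (hx : x = x') (hy : y = y') {A A' : E →ₗ[ℝ] E}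
    (hA : ∀ a, A a = A' a) : P.mat x y A = P.mat x' y' A' := by
  subst hx hy
  rw [LinearMap.ext hA]

theorem tF_R (G : Geo e D l) (P : PF E M K) (p : Pr e D) (t : ℝ) :
    tF P (G.R (p, t)) = tF P p := rfl

theorem tB_R (G : Geo e D l) (P : PF E M K) (p : Pr e D) (t : ℝ) :
    tB P (G.R (p, t)) = tB P p := by
  rw [tB, tB, G.bar_R]

theorem pF_R (G : Geo e D l) (P : PF E M K) (p : Pr e D) (t : ℝ) :
    pF P (G.R (p, t)) = pF P p :=
  mat_congr P rfl rfl fun a => prP_rv G.F G.hD G.hB G.hdiam p t a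

theorem pB_R (G : Geo e D l) (P : PF E M K) (p : Pr e D) (t : ℝ) :
    pB P (G.R (p, t)) = pB P p :=
  mat_congr P (G.bar_R p t) (G.bar_R p t) fun a => prQ_rv G.F G.hD G.hB G.hdiam p t a

theorem nF_R (G : Geo e D l) (P : PF E M K) (p : Pr e D) (t : ℝ) :
    nF P (G.R (p, t)) = nF P p :=
  mat_congr P rfl rfl fun a => nP_rv G.F G.hD G.hB G.hdiam p t a

theorem nB_R (G : Geo e D l) (P : PF E M K) (p : Pr e D) (t : ℝ) :
    nB P (G.R (p, t)) = nB P p :=
  mat_congr P (G.bar_R p t) (G.bar_R p t) fun a => nQ_rv G.F G.hD G.hB G.hdiam p t a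

theorem b0_R (G : Geo e D l) (P : PF E M K) (p : Pr e D) (t : ℝ) :
    b0 G P (G.R (p, t)) = Bm (b0 G P p) (b1 G P p) t := by
  rw [Bm, b0, b0, b1, ← P.mat_smul, ← P.mat_smul, ← P.mat_add]
  exact mat_congr P (G.bar_R p t) rfl fun a => BB_rv G.F G.hD G.hB G.hdiam G.hP p t a

theorem b1_R (G : Geo e D l) (P : PF E M K) (p : Pr e D) (t : ℝ) :
    b1 G P (G.R (p, t)) = Bm' (b0 G P p) (b1 G P p) t := by
  rw [Bm', b1, b0, b1, ← P.mat_smul, ← P.mat_smul, ← P.mat_add]
  exact mat_congr P (G.bar_R p t) rfl fun a => BB_rw G.F G.hD G.hB G.hdiam G.hP p t a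

/-! ### the pencil is nonsingular -/

theorem ga_b0 (G : Geo e D l) (P : PF E M K) (p : Pr e D) : ga P p * b0 G P p = nB P p := by
  rw [ga, nB, nF, b0, P.mat_mul, P.mat_mul, P.mat_mul]
  congr 1
  refine LinearMap.ext fun a => ?_
  change nQ e D p.v (AD e D p.v (nP e D p.v (BB e D p.v a))) = nQ e D p.v a
  rw [nP_BB G.F G.hD G.hB G.hdiam, AD_BB' G.F G.hD G.hB G.hdiam, nQ_nQ]

theorem b0_ga (G : Geo e D l) (P : PF E M K) (p : Pr e D) : b0 G P p * ga P p = nF P p := by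
  rw [ga, nB, nF, b0, P.mat_mul, P.mat_mul, P.mat_mul]
  congr 1
  refine LinearMap.ext fun a => ?_
  change BB e D p.v (nQ e D p.v (AD e D p.v (nP e D p.v a))) = nP e D p.v a
  rw [BB_nQ G.F G.hD G.hB G.hdiam, BB_AD_nP G.F G.hD G.hB G.hdiam]

theorem nF_b0 (G : Geo e D l) (P : PF E M K) (p : Pr e D) : nF P p * b0 G P p = b0 G P p := by
  rw [nF, b0, P.mat_mul]
  congr 1
  exact LinearMap.ext fun a => nP_BB G.F G.hD G.hB G.hdiam p.v a

theorem b0_nB (G : Geo e D l) (P : PF E M K) (p : Pr e D) : b0 G P p * nB P p = b0 G P p := by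
  rw [nB, b0, P.mat_mul]
  congr 1
  exact LinearMap.ext fun a => BB_nQ G.F G.hD G.hB G.hdiam p.v a

theorem nF_b1 (G : Geo e D l) (P : PF E M K) (p : Pr e D) : nF P p * b1 G P p = b1 G P p := by
  rw [nF, b1, P.mat_mul]
  congr 1
  refine LinearMap.ext fun a => ?_
  change nP e D p.v (BB e D p.w a) = BB e D p.w a
  rw [← nP_w, nP_BB G.F G.hD G.hB G.hdiam]

theorem b1_nB (G : Geo e D l) (P : PF E M K) (p : Pr e D) : b1 G P p * nB P p = b1 G P p := by
  rw [nB, b1, P.mat_mul]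
  congr 1
  refine LinearMap.ext fun a => ?_
  change BB e D p.w (nQ e D p.v a) = BB e D p.w a
  rw [← nQ_w, BB_nQ G.F G.hD G.hB G.hdiam]

/-- **the pencil of matrices is nonsingular** -/
theorem cor (G : Geo e D l) (P : PF E M K) (p : Pr e D) :
    Cor (nB P p) (nF P p) (b0 G P p) (b1 G P p) (fun t => ga P (G.R (p, t))) where
  i1 := nB_idem P p
  i2 := nF_idem P p
  l0 := nF_b0 G P p
  r0 := b0_nB G P p
  l1 := nF_b1 G P p
  r1 := b1_nB G P p
  lg t := by rw [ga, nB_R, ← Matrix.mul_assoc, ← Matrix.mul_assoc, nB_idem]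
  rg t := by rw [ga, nF_R, Matrix.mul_assoc, nF_idem]
  gb t := by
    have h := ga_b0 G P (G.R (p, t))
    rw [b0_R, nB_R] at h
    exact h
  bg t := by
    have h := b0_ga G P (G.R (p, t))
    rw [b0_R, nF_R] at h
    exact h

/-! ### smoothness -/

theorem Geo.map_foot (G : Geo e D l) : (dPr e D).Map (dM E M) (fun p => foot p.v) :=
  fun h => W.map_foot (map_v h)

theorem Geo.map_bar (G : Geo e D l) : (dPr e D).Map (dM E M) (fun p => bar e D p.v) :=
  fun h => WR.map_bar G.F D (map_v h)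

theorem smOp_prP (G : Geo e D l) :
    SmOp (dPr e D) (fun p => foot p.v) (fun p => foot p.v) (fun p => prPL e D p.v) :=
  ⟨fun hu ha => at_prP G.F G.hD G.hB G.hdiam G.hP (map_v hu) ha⟩

theorem smOp_prQ (G : Geo e D l) :
    SmOp (dPr e D) (fun p => bar e D p.v) (fun p => bar e D p.v) (fun p => prQL e D p.v) :=
  ⟨fun hu ha => at_prQ G.F G.hD G.hB G.hdiam G.hP (map_v hu) ha⟩

theorem smOp_nP (G : Geo e D l) :
    SmOp (dPr e D) (fun p => foot p.v) (fun p => foot p.v) (fun p => nPL e D p.v) :=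
  ⟨fun hu ha => at_nP G.F G.hD G.hB G.hdiam G.hP (map_v hu) ha⟩

theorem smOp_nQ (G : Geo e D l) :
    SmOp (dPr e D) (fun p => bar e D p.v) (fun p => bar e D p.v) (fun p => nQL e D p.v) :=
  ⟨fun hu ha => at_nQ G.F G.hD G.hB G.hdiam G.hP (map_v hu) ha⟩

theorem smOp_BB (G : Geo e D l) :
    SmOp (dPr e D) (fun p => bar e D p.v) (fun p => foot p.v) (fun p => BBl G p.v) :=
  ⟨fun hu ha => at_BB G.F G.hD G.hB G.hdiam G.hP (map_v hu) ha⟩

theorem smOp_AD (G : Geo e D l) :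
    SmOp (dPr e D) (fun p => foot p.v) (fun p => bar e D p.v) (fun p => ADL e D p.v) :=
  ⟨fun hu ha => at_AD G.F (map_v hu) ha⟩

theorem sm_tF (G : Geo e D l) (P : PF E M K) : SmM (dPr e D) (tF P) := P.smM_tm G.map_foot
theorem sm_tB (G : Geo e D l) (P : PF E M K) : SmM (dPr e D) (tB P) := P.smM_tm G.map_bar
theorem sm_pF (G : Geo e D l) (P : PF E M K) : SmM (dPr e D) (pF P) :=
  P.smM_mat G.map_foot (smOp_prP G)
theorem sm_pB (G : Geo e D l) (P : PF E M K) : SmM (dPr e D) (pB P) :=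
  P.smM_mat G.map_bar (smOp_prQ G)
theorem sm_nF (G : Geo e D l) (P : PF E M K) : SmM (dPr e D) (nF P) :=
  P.smM_mat G.map_foot (smOp_nP G)
theorem sm_nB (G : Geo e D l) (P : PF E M K) : SmM (dPr e D) (nB P) :=
  P.smM_mat G.map_bar (smOp_nQ G)
theorem sm_b0 (G : Geo e D l) (P : PF E M K) : SmM (dPr e D) (b0 G P) :=
  P.smM_mat G.map_bar (smOp_BB G)
theorem sm_ga (G : Geo e D l) (P : PF E M K) : SmM (dPr e D) (ga (e := e) (D := D) P) :=
  ((sm_nB G P).mul (P.smM_mat G.map_foot (smOp_AD G))).mul (sm_nF G P)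

theorem map_Rt (G : Geo e D l) (t : ℝ) : (dPr e D).Map (dPr e D) (fun p => G.R (p, t)) := by
  intro E' _ _ _ u x h
  exact G.map_R (u := fun s => (u s, t)) ⟨h, Sm.of_contDiff contDiff_const x⟩

theorem b1_eq (G : Geo e D l) (P : PF E M K) (p : Pr e D) :
    b1 G P p = b0 G P (G.R (p, π / 2)) := by
  rw [b0_R, Bm, Real.cos_pi_div_two, Real.sin_pi_div_two, zero_smul, one_smul, zero_add]

theorem sm_b1 (G : Geo e D l) (P : PF E M K) : SmM (dPr e D) (b1 G P) :=
  ((sm_b0 G P).comp (map_Rt G (π / 2))).congr fun p => (b1_eq G P p).symm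

/-! ### the complex structures -/

/-- the complex structure of the normal space at the cut point -/
def jB (G : Geo e D l) (P : PF E M K) (p : Pr e D) : Matrix (Fin K) (Fin K) ℝ :=
  J2m (nB P p) (nF P p) (b0 G P p) (b1 G P p)

/-- the complex structure of the normal space at the foot -/
def jF (G : Geo e D l) (P : PF E M K) (p : Pr e D) : Matrix (Fin K) (Fin K) ℝ :=
  J1m (nB P p) (nF P p) (b0 G P p) (b1 G P p)

theorem sm_jB (G : Geo e D l) (P : PF E M K) : SmM (dPr e D) (jB G P) := by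
  have h1 : SmM ((dPr e D).prod (Dif.lin ℝ)) (fun q => ga P (G.R q) * b1 G P (G.R q)) :=
    ((sm_ga G P).comp G.map_R).mul ((sm_b1 G P).comp G.map_R)
  refine SmM.congr (SmM.const_smul π⁻¹ h1.integral_pi) fun p => ?_
  ext i j
  rw [jB, (cor G P p).J2m_apply, Matrix.smul_apply, smul_eq_mul]
  congr 1
  refine intervalIntegral.integral_congr fun t _ => ?_
  rw [b1_R]

theorem sm_jF (G : Geo e D l) (P : PF E M K) : SmM (dPr e D) (jF G P) := by
  have h1 : SmM ((dPr e D).prod (Dif.lin ℝ)) (fun q => b1 G P (G.R q) * ga P (G.R q)) :=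
    ((sm_b1 G P).comp G.map_R).mul ((sm_ga G P).comp G.map_R)
  refine SmM.congr (SmM.const_smul π⁻¹ h1.integral_pi) fun p => ?_
  ext i j
  rw [jF, (cor G P p).J1m_apply, Matrix.smul_apply, smul_eq_mul]
  congr 1
  refine intervalIntegral.integral_congr fun t _ => ?_
  rw [b1_R]

theorem jB_R (G : Geo e D l) (P : PF E M K) (p : Pr e D) (t : ℝ) :
    jB G P (G.R (p, t)) = jB G P p := by
  rw [jB, nB_R, nF_R, b0_R, b1_R, (cor G P p).J2_rot]
  rfl

theorem jF_R (G : Geo e D l) (P : PF E M K) (p : Pr e D) (t : ℝ) :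
    jF G P (G.R (p, t)) = jF G P p := by
  rw [jF, nB_R, nF_R, b0_R, b1_R, (cor G P p).J1_rot]
  rfl

/-- the twisted isomorphism -/
def tp (G : Geo e D l) (P : PF E M K) (p : Pr e D) : Matrix (Fin K) (Fin K) ℝ :=
  Tm (nB P p) (nF P p) (b0 G P p) (b1 G P p)

/-- its inverse -/
def sp (G : Geo e D l) (P : PF E M K) (p : Pr e D) : Matrix (Fin K) (Fin K) ℝ :=
  Sm' (nB P p) (nF P p) (b0 G P p) (b1 G P p)

theorem sm_tp (G : Geo e D l) (P : PF E M K) : SmM (dPr e D) (tp G P) :=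
  (sm_b0 G P).sub ((sm_b1 G P).mul (sm_jB G P))

theorem sm_sp (G : Geo e D l) (P : PF E M K) : SmM (dPr e D) (sp G P) := by
  have h1 := fun p => pinv (nB_idem P p) (nB_tr P p) (nF_tr P p) (cor G P p).rT (cor G P p).lS
    (cor G P p).rS (cor G P p).ST (cor G P p).TS
  have h2 : SmM (dPr e D) (fun p => (tp G P p)ᵀ * tp G P p + (1 - nB P p)) :=
    (((sm_tp G P).transpose).mul (sm_tp G P)).add ((SmM.const _ 1).sub (sm_nB G P))
  refine SmM.congr ((h2.inv fun p => (h1 p).1).mul (sm_tp G P).transpose) fun p => ?_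
  exact (h1 p).2.symm

/-! ### complexified -/

/-- the idempotent `Z` at the cut point -/
def Zm (G : Geo e D l) (P : PF E M K) (p : Pr e D) : Matrix (Fin K) (Fin K) ℂ :=
  Cor.Wm (nB P p) (nF P p) (b0 G P p) (b1 G P p)

/-- the idempotent `W` at the foot -/
def Wf (G : Geo e D l) (P : PF E M K) (p : Pr e D) : Matrix (Fin K) (Fin K) ℂ :=
  Cor.Xm (nB P p) (nF P p) (b0 G P p) (b1 G P p)

/-- the map `Z → W` -/
def tau (G : Geo e D l) (P : PF E M K) (p : Pr e D) : Matrix (Fin K) (Fin K) ℂ :=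
  Cor.tau (nB P p) (nF P p) (b0 G P p) (b1 G P p)

/-- the map `W → Z` -/
def sig (G : Geo e D l) (P : PF E M K) (p : Pr e D) : Matrix (Fin K) (Fin K) ℂ :=
  Cor.sig (nB P p) (nF P p) (b0 G P p) (b1 G P p)

theorem sm_cplx {X : Type*} {dX : Dif X} {m n : Type*} [Fintype m] [Fintype n]
    {a : X → Matrix m n ℝ} (ha : SmM dX a) : SmM dX (fun x => cplx (a x)) := ha.ofReal

theorem SmM.csmul {X : Type*} {dX : Dif X} {m n : Type*} [Fintype m] [Fintype n]
    {a : X → Matrix m n ℂ} (c : ℂ) (ha : SmM dX a) : SmM dX (fun x => c • a x) :=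
  SmM.smul' (SmF.const dX c) ha

theorem sm_eig {X : Type*} {dX : Dif X} {N J : X → Matrix (Fin K) (Fin K) ℝ} (hN : SmM dX N)
    (hJ : SmM dX J) : SmM dX (fun x => eig (N x) (J x)) :=
  SmM.csmul (1 / 2) ((sm_cplx hN).sub (SmM.csmul Complex.I (sm_cplx hJ)))

theorem sm_Zm (G : Geo e D l) (P : PF E M K) : SmM (dPr e D) (Zm G P) :=
  sm_eig (sm_nB G P) (sm_jB G P)

theorem sm_Wf (G : Geo e D l) (P : PF E M K) : SmM (dPr e D) (Wf G P) :=
  sm_eig (sm_nF G P) (sm_jF G P)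

theorem sm_tau (G : Geo e D l) (P : PF E M K) : SmM (dPr e D) (tau G P) :=
  (sm_cplx (sm_tp G P)).mul (sm_Zm G P)

theorem sm_sig (G : Geo e D l) (P : PF E M K) : SmM (dPr e D) (sig G P) :=
  (sm_cplx (sm_sp G P)).mul (sm_Wf G P)

theorem Zm_R (G : Geo e D l) (P : PF E M K) (p : Pr e D) (t : ℝ) :
    Zm G P (G.R (p, t)) = Zm G P p := by
  rw [Zm, nB_R, nF_R, b0_R, b1_R, (cor G P p).W_rot]
  rfl

theorem Wf_R (G : Geo e D l) (P : PF E M K) (p : Pr e D) (t : ℝ) :
    Wf G P (G.R (p, t)) = Wf G P p := by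
  rw [Wf, nB_R, nF_R, b0_R, b1_R, (cor G P p).X_rot]
  rfl

theorem tau_R (G : Geo e D l) (P : PF E M K) (p : Pr e D) (t : ℝ) :
    tau G P (G.R (p, t)) = Cor.ph t • tau G P p := by
  rw [tau, nB_R, nF_R, b0_R, b1_R, (cor G P p).tau_rot]
  rfl

theorem sig_R (G : Geo e D l) (P : PF E M K) (p : Pr e D) (t : ℝ) :
    sig G P (G.R (p, t)) = (starRingEnd ℂ) (Cor.ph t) • sig G P p := by
  rw [sig, nB_R, nF_R, b0_R, b1_R, (cor G P p).sig_rot]
  rfl

end

end Vale.Agent.P231.X3
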