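import Mathlib
import Vale.Agent.P231.H775.SmV

/-!
# P231, stage 2, block X3 (part 2): Parseval frames of the tangent bundle

On a compact Riemannian manifold there are finitely many smooth vector fields `X i` with
`∑ i, ⟨X i, ξ⟩ X i = ξ` for all tangent vectors `ξ`.
-/

set_option maxSynthPendingDepth 3
set_option linter.unusedSectionVars false
set_option linter.unusedVariables false

open Bundle Manifold Set Filter Module InnerProductSpace
open scoped ContDiff Manifold Topology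

namespace Vale.Agent.P231.X3

noncomputable section

variable {E : Type*} [NormedAddCommGroup E] [NormedSpace ℝ E] [FiniteDimensional ℝ E]
  {M : Type*} [MetricSpace M] [ChartedSpace E M] [IsManifold 𝓘(ℝ, E) ∞ M]
  [RiemannianBundle (fun x : M => TangentSpace 𝓘(ℝ, E) x)]
  [IsContMDiffRiemannianBundle 𝓘(ℝ, E) ∞ E (fun x : M => TangentSpace 𝓘(ℝ, E) x)]

/-- a vector field which is smooth near `x₀` -/
def SecAt (s : ∀ x : M, TangentSpace 𝓘(ℝ, E) x) (x₀ : M) : Prop :=
  ContMDiffAt 𝓘(ℝ, E) (𝓘(ℝ, E).prod 𝓘(ℝ, E)) ∞ (fun x => TotalSpace.mk' E x (s x)) x₀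

theorem SecAt.inner {s t : ∀ x : M, TangentSpace 𝓘(ℝ, E) x} {x₀ : M} (hs : SecAt s x₀)
    (ht : SecAt t x₀) : ContMDiffAt 𝓘(ℝ, E) 𝓘(ℝ, ℝ) ∞ (fun x => (inner ℝ (s x) (t x) : ℝ)) x₀ :=
  ContMDiffAt.inner_bundle hs ht

theorem SecAt.sub {s t : ∀ x : M, TangentSpace 𝓘(ℝ, E) x} {x₀ : M} (hs : SecAt s x₀)
    (ht : SecAt t x₀) : SecAt (fun x => s x - t x) x₀ := ContMDiffAt.sub_section hs ht

theorem SecAt.smul {c : M → ℝ} {t : ∀ x : M, TangentSpace 𝓘(ℝ, E) x} {x₀ : M}
    (hc : ContMDiffAt 𝓘(ℝ, E) 𝓘(ℝ, ℝ) ∞ c x₀)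
    (ht : SecAt t x₀) : SecAt (fun x => c x • t x) x₀ := ContMDiffAt.smul_section hc ht

theorem SecAt.sum {ι : Type*} (s : Finset ι) {t : ι → ∀ x : M, TangentSpace 𝓘(ℝ, E) x} {x₀ : M}
    (ht : ∀ i ∈ s, SecAt (t i) x₀) : SecAt (fun x => ∑ i ∈ s, t i x) x₀ :=
  ContMDiffAt.sum_section ht

theorem secAt_gramSchmidt {N : ℕ} {s : Fin N → ∀ x : M, TangentSpace 𝓘(ℝ, E) x} {x₀ : M}
    (hs : ∀ i, SecAt (s i) x₀) (hli : LinearIndependent ℝ (fun i => s i x₀)) (n : Fin N) :
    SecAt (fun x => gramSchmidt ℝ (fun i => s i x) n) x₀ := by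
  induction n using WellFoundedLT.induction with
  | ind n ih =>
    have h1 : (fun x => gramSchmidt ℝ (fun i => s i x) n) = fun x => s n x -
        ∑ i ∈ Finset.Iio n, ((inner ℝ (gramSchmidt ℝ (fun i => s i x) i) (s n x) : ℝ) *
          (inner ℝ (gramSchmidt ℝ (fun i => s i x) i)
            (gramSchmidt ℝ (fun i => s i x) i) : ℝ)⁻¹) • gramSchmidt ℝ (fun i => s i x) i := by
      funext x
      have h2 := gramSchmidt_def'' ℝ (fun i => s i x) n
      rw [eq_sub_iff_add_eq]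
      refine Eq.trans ?_ h2.symm
      congr 1
      refine Finset.sum_congr rfl fun i _ => ?_
      rw [real_inner_self_eq_norm_sq, div_eq_mul_inv]
      rfl
    rw [h1]
    refine (hs n).sub (SecAt.sum _ fun i hi => ?_)
    have h3 := ih i (Finset.mem_Iio.1 hi)
    refine SecAt.smul ?_ h3
    refine ContMDiffAt.mul (h3.inner (hs n)) ?_
    refine ContMDiffAt.inv₀ (h3.inner h3) ?_
    rw [real_inner_self_eq_norm_sq]
    exact pow_ne_zero 2 (norm_ne_zero_iff.2 (gramSchmidt_ne_zero i hli))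

/-- local orthonormal frames -/
theorem exists_local_orthonormal (x₀ : M) : ∃ g : Fin (finrank ℝ E) → ∀ x : M,
    TangentSpace 𝓘(ℝ, E) x, ∀ x ∈ (chartAt E x₀).source, (∀ i, SecAt (g i) x) ∧
      ∀ ξ : TangentSpace 𝓘(ℝ, E) x, ∑ i, (inner ℝ (g i x) ξ : ℝ) • g i x = ξ := by
  classical
  let b : Basis (Fin (finrank ℝ E)) ℝ E := finBasis ℝ E
  let T := trivializationAt E (TangentSpace 𝓘(ℝ, E) : M → Type _) x₀
  have hT : IsLocalFrameOn 𝓘(ℝ, E) E ∞ (T.localFrame b) T.baseSet :=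
    T.isLocalFrameOn_localFrame_baseSet 𝓘(ℝ, E) ∞ b
  have hbase : T.baseSet = (chartAt E x₀).source := rfl
  have hs : ∀ x ∈ (chartAt E x₀).source, ∀ i, SecAt (T.localFrame b i) x := by
    intro x hx i
    exact hT.contMDiffAt (T.open_baseSet) hx i
  have hli : ∀ x ∈ (chartAt E x₀).source, LinearIndependent ℝ (fun i => T.localFrame b i x) :=
    fun x hx => hT.linearIndependent hx
  refine ⟨fun i x => gramSchmidtNormed ℝ (fun j => T.localFrame b j x) i, fun x hx => ⟨?_, ?_⟩⟩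
  · intro i
    have h1 := secAt_gramSchmidt (hs x hx) (hli x hx) i
    have h2 : (fun x => gramSchmidtNormed ℝ (fun j => T.localFrame b j x) i) = fun x =>
        (Real.sqrt (inner ℝ (gramSchmidt ℝ (fun j => T.localFrame b j x) i)
          (gramSchmidt ℝ (fun j => T.localFrame b j x) i) : ℝ))⁻¹ •
          gramSchmidt ℝ (fun j => T.localFrame b j x) i := by
      funext y
      rw [gramSchmidtNormed, real_inner_self_eq_norm_sq, Real.sqrt_sq (norm_nonneg _)]
      rfl
    change SecAt (fun x => gramSchmidtNormed ℝ (fun j => T.localFrame b j x) i) x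
    rw [h2]
    refine SecAt.smul ?_ h1
    have h3 : (inner ℝ (gramSchmidt ℝ (fun j => T.localFrame b j x) i)
          (gramSchmidt ℝ (fun j => T.localFrame b j x) i) : ℝ) ≠ 0 := by
      rw [real_inner_self_eq_norm_sq]
      exact pow_ne_zero 2 (norm_ne_zero_iff.2 (gramSchmidt_ne_zero i (hli x hx)))
    have h4 : ContDiffAt ℝ ∞ (fun r : ℝ => (Real.sqrt r)⁻¹)
        (inner ℝ (gramSchmidt ℝ (fun j => T.localFrame b j x) i)
          (gramSchmidt ℝ (fun j => T.localFrame b j x) i) : ℝ) := by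
      refine (Real.contDiffAt_sqrt h3).inv ?_
      rw [real_inner_self_eq_norm_sq, Real.sqrt_sq (norm_nonneg _)]
      exact norm_ne_zero_iff.2 (gramSchmidt_ne_zero i (hli x hx))
    exact ContMDiffAt.comp (g := fun r : ℝ => (Real.sqrt r)⁻¹) x h4.contMDiffAt (h1.inner h1)
  · intro ξ
    have hfd : FiniteDimensional ℝ (TangentSpace 𝓘(ℝ, E) x) :=
      inferInstanceAs (FiniteDimensional ℝ E)
    have ho := gramSchmidtNormed_orthonormal (𝕜 := ℝ) (hli x hx)
    have hcard : Fintype.card (Fin (finrank ℝ E)) = finrank ℝ (TangentSpace 𝓘(ℝ, E) x) := by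
      rw [Fintype.card_fin]
      rfl
    have hspan : ⊤ ≤ Submodule.span ℝ (Set.range (gramSchmidtNormed ℝ
        (fun j => T.localFrame b j x))) := by
      rw [(ho.linearIndependent.span_eq_top_of_card_eq_finrank' hcard)]
    let B := OrthonormalBasis.mk ho hspan
    have h1 := B.sum_repr' ξ
    have hB : ∀ i, B i = gramSchmidtNormed ℝ (fun j => T.localFrame b j x) i := fun i => by
      rw [OrthonormalBasis.coe_mk]
    simp only [hB] at h1
    exact h1

/-- a Parseval frame of the tangent bundle -/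
structure PF (E : Type*) [NormedAddCommGroup E] [NormedSpace ℝ E] (M : Type*) [MetricSpace M]
    [ChartedSpace E M] [IsManifold 𝓘(ℝ, E) ∞ M]
    [RiemannianBundle (fun x : M => TangentSpace 𝓘(ℝ, E) x)]
    [IsContMDiffRiemannianBundle 𝓘(ℝ, E) ∞ E (fun x : M => TangentSpace 𝓘(ℝ, E) x)]
    (K : ℕ) where
  /-- the fields -/
  X : Fin K → ∀ x : M, TangentSpace 𝓘(ℝ, E) x
  smooth : ∀ i x, SecAt (X i) x
  parseval : ∀ (x : M) (ξ : TangentSpace 𝓘(ℝ, E) x), ∑ i, (inner ℝ (X i x) ξ : ℝ) • X i x = ξ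

/-- Parseval frames exist on compact manifolds -/
theorem exists_pf [CompactSpace M] : ∃ K, Nonempty (PF E M K) := by
  classical
  obtain ⟨ι, f, -⟩ := SmoothBumpCovering.exists_isSubordinate 𝓘(ℝ, E) (isClosed_univ (X := M))
    (U := fun _ => univ) fun x _ => univ_mem
  have : Fintype ι := f.fintype
  set N := finrank ℝ E with hN
  choose g hg using fun x₀ : M => exists_local_orthonormal (E := E) x₀
  -- the sum of the squares of the bump functions
  set S : M → ℝ := fun x => ∑ i, (f i x) ^ 2 with hS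
  have hfs : ∀ i, ContMDiff 𝓘(ℝ, E) 𝓘(ℝ, ℝ) ∞ (fun x => f i x) := fun i => (f i).contMDiff
  have hSs : ContMDiff 𝓘(ℝ, E) 𝓘(ℝ, ℝ) ∞ S := by
    rw [hS]
    exact ContMDiff.sum fun i _ => (hfs i).pow 2
  have hSpos : ∀ x, 0 < S x := by
    intro x
    have h1 : f (f.ind x (mem_univ x)) x = 1 := f.apply_ind x (mem_univ x)
    have h2 : (f (f.ind x (mem_univ x)) x) ^ 2 ≤ S x :=
      Finset.single_le_sum (f := fun i => (f i x) ^ 2) (fun i _ => sq_nonneg _)
        (Finset.mem_univ _)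
    rw [h1] at h2
    linarith
  let c : ι → M → ℝ := fun i x => (Real.sqrt (S x))⁻¹ * f i x
  have hc : ∀ i, ContMDiff 𝓘(ℝ, E) 𝓘(ℝ, ℝ) ∞ (c i) := by
    intro i x
    refine ContMDiffAt.mul ?_ (hfs i x)
    have h4 : ContDiffAt ℝ ∞ (fun r : ℝ => (Real.sqrt r)⁻¹) (S x) :=
      (Real.contDiffAt_sqrt (hSpos x).ne').inv (Real.sqrt_pos.2 (hSpos x)).ne'
    exact ContMDiffAt.comp (g := fun r : ℝ => (Real.sqrt r)⁻¹) x h4.contMDiffAt (hSs x)
  let Y : ι × Fin N → ∀ x : M, TangentSpace 𝓘(ℝ, E) x := fun p x => c p.1 x • g (f.c p.1) p.2 x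
  have hY : ∀ p x, SecAt (Y p) x := by
    intro p x
    by_cases hx : x ∈ tsupport (f p.1)
    · have hx' : x ∈ (chartAt E (f.c p.1)).source := (f p.1).tsupport_subset_chartAt_source hx
      exact SecAt.smul (hc p.1 x) ((hg (f.c p.1) x hx').1 p.2)
    · have h1 : ∀ᶠ y in 𝓝 x, f p.1 y = 0 := by
        have := (notMem_tsupport_iff_eventuallyEq).1 hx
        exact this
      have h2 : SecAt (fun y => (0 : ℝ) • (0 : ∀ y : M, TangentSpace 𝓘(ℝ, E) y) y) x := by
        have h3 : ContMDiffAt 𝓘(ℝ, E) (𝓘(ℝ, E).prod 𝓘(ℝ, E)) ∞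
            (fun y => TotalSpace.mk' E y ((0 : ∀ y : M, TangentSpace 𝓘(ℝ, E) y) y)) x :=
          (contMDiff_zeroSection ℝ (TangentSpace 𝓘(ℝ, E) : M → Type _)).contMDiffAt
        exact SecAt.smul contMDiffAt_const h3
      refine ContMDiffAt.congr_of_eventuallyEq h2 ?_
      filter_upwards [h1] with y hy
      have h4 : Y p y = (0 : ℝ) • (0 : ∀ y : M, TangentSpace 𝓘(ℝ, E) y) y := by
        simp only [Y, c, hy, mul_zero, zero_smul]
      rw [h4]
  have hpar : ∀ (x : M) (ξ : TangentSpace 𝓘(ℝ, E) x),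
      ∑ p, (inner ℝ (Y p x) ξ : ℝ) • Y p x = ξ := by
    intro x ξ
    rw [Fintype.sum_prod_type]
    have h1 : ∀ i, ∑ j, (inner ℝ (Y (i, j) x) ξ : ℝ) • Y (i, j) x =
        ((S x)⁻¹ * (f i x) ^ 2) • ξ := by
      intro i
      by_cases hx : x ∈ (chartAt E (f.c i)).source
      · have h2 := (hg (f.c i) x hx).2 ξ
        have h3 : ∀ j, (inner ℝ (Y (i, j) x) ξ : ℝ) • Y (i, j) x =
            (c i x ^ 2) • ((inner ℝ (g (f.c i) j x) ξ : ℝ) • g (f.c i) j x) := by
          intro j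
          simp only [Y]
          rw [inner_smul_left, smul_smul, smul_smul]
          congr 1
          simp only [conj_trivial]
          ring
        rw [Finset.sum_congr rfl fun j _ => h3 j, ← Finset.smul_sum, h2]
        congr 1
        simp only [c]
        rw [mul_pow, inv_pow, Real.sq_sqrt (hSpos x).le]
      · have h4 : f i x = 0 := by
          by_contra h5
          exact hx ((f i).tsupport_subset_chartAt_source (subset_tsupport _ h5))
        have h6 : ∀ j, Y (i, j) x = 0 := fun j => by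
          simp only [Y, c, h4, mul_zero, zero_smul]
        rw [h4]
        simp only [h6, smul_zero, Finset.sum_const_zero]
        simp
    rw [Finset.sum_congr rfl fun i _ => h1 i, ← Finset.sum_smul, ← Finset.mul_sum]
    have h7 : (S x)⁻¹ * ∑ i, (f i x) ^ 2 = 1 := inv_mul_cancel₀ (hSpos x).ne'
    rw [h7, one_smul]
  let eq := Fintype.equivFin (ι × Fin N)
  refine ⟨Fintype.card (ι × Fin N), ⟨⟨fun i => Y (eq.symm i), fun i x => hY _ x, fun x ξ => ?_⟩⟩⟩
  exact (Equiv.sum_comp eq.symm (fun p => (inner ℝ (Y p x) ξ : ℝ) • Y p x)).trans (hpar x ξ)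

end

end Vale.Agent.P231.X3
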