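import Vale.Agent.P231.X1.J

/-!
# P231, stage 2, block X3 (part 4): nonsingular pencils between corners of matrix algebras

`N1`, `N2` idempotent matrices, `B_t = cos t B0 + sin t B1 = N2 B_t N1` with inverses
`g t = N1 (g t) N2`: the complex structures `J1`, `J2` and the twisted isomorphism of `X1/J.lean`
as matrices.
-/

set_option linter.unusedSectionVars false
set_option linter.unusedVariables false

open MeasureTheory Set Matrix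
open scoped Real

namespace Vale.Agent.P231.X3

noncomputable section

variable {n : Type*} [Fintype n] [DecidableEq n]

/-- the image of a matrix -/
def Fs (N : Matrix n n ℝ) : Submodule ℝ (n → ℝ) := LinearMap.range (Matrix.toLin' N)

/-- the inclusion of the image -/
def ios (N : Matrix n n ℝ) : Fs N →L[ℝ] (n → ℝ) := (Fs N).subtypeL

/-- the projection to the image -/
def pis (N : Matrix n n ℝ) : (n → ℝ) →L[ℝ] Fs N :=
  LinearMap.toContinuousLinearMap (Matrix.toLin' N).rangeRestrict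

theorem ios_pis (N : Matrix n n ℝ) (x : n → ℝ) : ios N (pis N x) = N *ᵥ x := rfl

theorem mulVec_ios {N : Matrix n n ℝ} (hN : N * N = N) (x : Fs N) : N *ᵥ (ios N x) = ios N x := by
  obtain ⟨_, y, rfl⟩ := x
  change N *ᵥ (N *ᵥ y) = N *ᵥ y
  rw [Matrix.mulVec_mulVec, hN]

theorem pis_ios {N : Matrix n n ℝ} (hN : N * N = N) (x : Fs N) : pis N (ios N x) = x :=
  Subtype.ext (mulVec_ios hN x)

/-- the matrix of a map between images -/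
def mkm (N1 N2 : Matrix n n ℝ) (L : Fs N1 →L[ℝ] Fs N2) : Matrix n n ℝ :=
  LinearMap.toMatrix' ((ios N2 ∘L L ∘L pis N1 : (n → ℝ) →L[ℝ] (n → ℝ)) : (n → ℝ) →ₗ[ℝ] (n → ℝ))

/-- the map between images given by a matrix -/
def cr (N1 N2 : Matrix n n ℝ) (A : Matrix n n ℝ) : Fs N1 →L[ℝ] Fs N2 :=
  pis N2 ∘L (LinearMap.toContinuousLinearMap (Matrix.toLin' A)) ∘L ios N1

theorem mkm_mulVec (N1 N2 : Matrix n n ℝ) (L : Fs N1 →L[ℝ] Fs N2) (x : n → ℝ) :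
    mkm N1 N2 L *ᵥ x = ios N2 (L (pis N1 x)) := by
  rw [mkm, ← Matrix.toLin'_apply, Matrix.toLin'_toMatrix']
  rfl

theorem cr_apply (N1 N2 A : Matrix n n ℝ) (x : Fs N1) :
    cr N1 N2 A x = pis N2 (A *ᵥ ios N1 x) := rfl

theorem ext_mulVec {A B : Matrix n n ℝ} (h : ∀ x, A *ᵥ x = B *ᵥ x) : A = B :=
  Matrix.toLin'.injective (LinearMap.ext h)

theorem mkm_comp {N1 N2 N3 : Matrix n n ℝ} (h2 : N2 * N2 = N2) (L : Fs N1 →L[ℝ] Fs N2)
    (L' : Fs N2 →L[ℝ] Fs N3) : mkm N1 N3 (L' ∘L L) = mkm N2 N3 L' * mkm N1 N2 L := by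
  refine ext_mulVec fun x => ?_
  rw [← Matrix.mulVec_mulVec, mkm_mulVec, mkm_mulVec, mkm_mulVec, pis_ios h2]
  rfl

theorem mkm_id (N : Matrix n n ℝ) : mkm N N (ContinuousLinearMap.id ℝ (Fs N)) = N := by
  refine ext_mulVec fun x => ?_
  rw [mkm_mulVec]
  exact ios_pis N x

theorem mkm_add (N1 N2 : Matrix n n ℝ) (L L' : Fs N1 →L[ℝ] Fs N2) :
    mkm N1 N2 (L + L') = mkm N1 N2 L + mkm N1 N2 L' := by
  refine ext_mulVec fun x => ?_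
  rw [Matrix.add_mulVec, mkm_mulVec, mkm_mulVec, mkm_mulVec, _root_.add_apply, map_add]

theorem mkm_sub (N1 N2 : Matrix n n ℝ) (L L' : Fs N1 →L[ℝ] Fs N2) :
    mkm N1 N2 (L - L') = mkm N1 N2 L - mkm N1 N2 L' := by
  refine ext_mulVec fun x => ?_
  rw [Matrix.sub_mulVec, mkm_mulVec, mkm_mulVec, mkm_mulVec, _root_.sub_apply, map_sub]

theorem mkm_neg (N1 N2 : Matrix n n ℝ) (L : Fs N1 →L[ℝ] Fs N2) :
    mkm N1 N2 (-L) = -mkm N1 N2 L := by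
  refine ext_mulVec fun x => ?_
  rw [Matrix.neg_mulVec, mkm_mulVec, mkm_mulVec, _root_.neg_apply, map_neg]

theorem mkm_smul (N1 N2 : Matrix n n ℝ) (c : ℝ) (L : Fs N1 →L[ℝ] Fs N2) :
    mkm N1 N2 (c • L) = c • mkm N1 N2 L := by
  refine ext_mulVec fun x => ?_
  rw [Matrix.smul_mulVec, mkm_mulVec, mkm_mulVec, _root_.smul_apply, map_smul]

theorem mul_mkm {N1 N2 : Matrix n n ℝ} (h2 : N2 * N2 = N2) (L : Fs N1 →L[ℝ] Fs N2) :
    N2 * mkm N1 N2 L = mkm N1 N2 L := by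
  refine ext_mulVec fun x => ?_
  rw [← Matrix.mulVec_mulVec, mkm_mulVec, mulVec_ios h2]

theorem mkm_mul {N1 N2 : Matrix n n ℝ} (h1 : N1 * N1 = N1) (L : Fs N1 →L[ℝ] Fs N2) :
    mkm N1 N2 L * N1 = mkm N1 N2 L := by
  refine ext_mulVec fun x => ?_
  have h3 : pis N1 (N1 *ᵥ x) = pis N1 x := by
    have h4 := pis_ios h1 (pis N1 x)
    rwa [ios_pis] at h4
  rw [← Matrix.mulVec_mulVec, mkm_mulVec, mkm_mulVec, h3]

theorem mkm_cr {N1 N2 A : Matrix n n ℝ} (h1 : A * N1 = A) (h2 : N2 * A = A) :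
    mkm N1 N2 (cr N1 N2 A) = A := by
  refine ext_mulVec fun x => ?_
  rw [mkm_mulVec, cr_apply, ios_pis, ios_pis, Matrix.mulVec_mulVec, Matrix.mulVec_mulVec,
    h2, h1]

theorem cr_mul {N1 N2 N3 A B : Matrix n n ℝ} (hB : N2 * B = B) :
    cr N2 N3 A ∘L cr N1 N2 B = cr N1 N3 (A * B) := by
  ext1 x
  rw [ContinuousLinearMap.comp_apply, cr_apply, cr_apply, cr_apply, ios_pis,
    Matrix.mulVec_mulVec, Matrix.mulVec_mulVec, Matrix.mul_assoc, hB]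

theorem cr_self {N : Matrix n n ℝ} (hN : N * N = N) :
    cr N N N = ContinuousLinearMap.id ℝ (Fs N) := by
  ext1 x
  rw [cr_apply, mulVec_ios hN, pis_ios hN]
  rfl

theorem cr_add (N1 N2 A B : Matrix n n ℝ) : cr N1 N2 (A + B) = cr N1 N2 A + cr N1 N2 B := by
  ext1 x
  rw [cr_apply, Matrix.add_mulVec, map_add]
  rfl

theorem cr_smul (N1 N2 : Matrix n n ℝ) (c : ℝ) (A : Matrix n n ℝ) :
    cr N1 N2 (c • A) = c • cr N1 N2 A := by
  ext1 x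
  rw [cr_apply, Matrix.smul_mulVec, map_smul]
  rfl

/-- a nonsingular pencil between two corners -/
structure Cor (N1 N2 B0 B1 : Matrix n n ℝ) (g : ℝ → Matrix n n ℝ) : Prop where
  i1 : N1 * N1 = N1
  i2 : N2 * N2 = N2
  l0 : N2 * B0 = B0
  r0 : B0 * N1 = B0
  l1 : N2 * B1 = B1
  r1 : B1 * N1 = B1
  lg : ∀ t, N1 * g t = g t
  rg : ∀ t, g t * N2 = g t
  gb : ∀ t, g t * (Real.cos t • B0 + Real.sin t • B1) = N1
  bg : ∀ t, (Real.cos t • B0 + Real.sin t • B1) * g t = N2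

/-- the pencil of matrices -/
def Bm (B0 B1 : Matrix n n ℝ) (t : ℝ) : Matrix n n ℝ := Real.cos t • B0 + Real.sin t • B1

/-- its derivative -/
def Bm' (B0 B1 : Matrix n n ℝ) (t : ℝ) : Matrix n n ℝ := (-Real.sin t) • B0 + Real.cos t • B1

/-- the complex structure on the source -/
def J2m (N1 N2 B0 B1 : Matrix n n ℝ) : Matrix n n ℝ :=
  mkm N1 N1 (X1.J2 (cr N1 N2 B0) (cr N1 N2 B1))

/-- the complex structure on the target -/
def J1m (N1 N2 B0 B1 : Matrix n n ℝ) : Matrix n n ℝ :=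
  mkm N2 N2 (X1.J1 (cr N1 N2 B0) (cr N1 N2 B1))

/-- the twisted isomorphism -/
def Tm (N1 N2 B0 B1 : Matrix n n ℝ) : Matrix n n ℝ := B0 - B1 * J2m N1 N2 B0 B1

/-- the inverse of the twisted isomorphism -/
def Sm' (N1 N2 B0 B1 : Matrix n n ℝ) : Matrix n n ℝ :=
  mkm N2 N1 ((X1.TT (cr N1 N2 B0) (cr N1 N2 B1)).inverse)

namespace Cor

variable {N1 N2 B0 B1 : Matrix n n ℝ} {g : ℝ → Matrix n n ℝ}

theorem cr_Bt (N1 N2 B0 B1 : Matrix n n ℝ) (t : ℝ) :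
    X1.Bt (cr N1 N2 B0) (cr N1 N2 B1) t = cr N1 N2 (Bm B0 B1 t) := by
  rw [X1.Bt, Bm, cr_add, cr_smul, cr_smul]

theorem cr_Bd (N1 N2 B0 B1 : Matrix n n ℝ) (t : ℝ) :
    X1.Bd (cr N1 N2 B0) (cr N1 N2 B1) t = cr N1 N2 (Bm' B0 B1 t) := by
  rw [X1.Bd, Bm', cr_add, cr_smul, cr_smul]

theorem lB (h : Cor N1 N2 B0 B1 g) (t : ℝ) : N2 * Bm B0 B1 t = Bm B0 B1 t := by
  rw [Bm, Matrix.mul_add, Matrix.mul_smul, Matrix.mul_smul, h.l0, h.l1]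

theorem rB (h : Cor N1 N2 B0 B1 g) (t : ℝ) : Bm B0 B1 t * N1 = Bm B0 B1 t := by
  rw [Bm, Matrix.add_mul, Matrix.smul_mul, Matrix.smul_mul, h.r0, h.r1]

theorem lB' (h : Cor N1 N2 B0 B1 g) (t : ℝ) : N2 * Bm' B0 B1 t = Bm' B0 B1 t := by
  rw [Bm', Matrix.mul_add, Matrix.mul_smul, Matrix.mul_smul, h.l0, h.l1]

theorem rB' (h : Cor N1 N2 B0 B1 g) (t : ℝ) : Bm' B0 B1 t * N1 = Bm' B0 B1 t := by
  rw [Bm', Matrix.add_mul, Matrix.smul_mul, Matrix.smul_mul, h.r0, h.r1]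

theorem inverse_eq (h : Cor N1 N2 B0 B1 g) (t : ℝ) :
    (X1.Bt (cr N1 N2 B0) (cr N1 N2 B1) t).IsInvertible ∧
      (X1.Bt (cr N1 N2 B0) (cr N1 N2 B1) t).inverse = cr N2 N1 (g t) := by
  rw [cr_Bt]
  have h1 : cr N1 N2 (Bm B0 B1 t) ∘L cr N2 N1 (g t) = ContinuousLinearMap.id ℝ (Fs N2) := by
    rw [cr_mul (h.lg t), Bm, h.bg, cr_self h.i2]
  have h2 : cr N2 N1 (g t) ∘L cr N1 N2 (Bm B0 B1 t) = ContinuousLinearMap.id ℝ (Fs N1) := by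
    rw [cr_mul (h.lB t), Bm, h.gb, cr_self h.i1]
  exact ⟨ContinuousLinearMap.IsInvertible.of_inverse h1 h2,
    ContinuousLinearMap.inverse_eq h1 h2⟩

theorem nons (h : Cor N1 N2 B0 B1 g) : X1.Nons (cr N1 N2 B0) (cr N1 N2 B1) :=
  fun t => (h.inverse_eq t).1

theorem mk_gg (h : Cor N1 N2 B0 B1 g) (t : ℝ) :
    mkm N1 N1 (X1.gg (cr N1 N2 B0) (cr N1 N2 B1) t) = g t * Bm' B0 B1 t := by
  rw [X1.gg, (h.inverse_eq t).2, cr_Bd, cr_mul (h.lB' t), mkm_cr]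
  · rw [Matrix.mul_assoc, h.rB']
  · rw [← Matrix.mul_assoc, h.lg]

theorem mk_gg' (h : Cor N1 N2 B0 B1 g) (t : ℝ) :
    mkm N2 N2 (X1.gg' (cr N1 N2 B0) (cr N1 N2 B1) t) = Bm' B0 B1 t * g t := by
  rw [X1.gg', (h.inverse_eq t).2, cr_Bd, cr_mul (h.lg t), mkm_cr]
  · rw [Matrix.mul_assoc, h.rg]
  · rw [← Matrix.mul_assoc, h.lB']

/-- the entries of `mk` as continuous linear forms -/
def ent (N1 N2 : Matrix n n ℝ) (i j : n) : (Fs N1 →L[ℝ] Fs N2) →L[ℝ] ℝ :=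
  LinearMap.toContinuousLinearMap
    { toFun := fun L => mkm N1 N2 L i j
      map_add' := fun L L' => by rw [mkm_add]; rfl
      map_smul' := fun c L => by rw [mkm_smul]; rfl }

theorem ent_apply (N1 N2 : Matrix n n ℝ) (i j : n) (L : Fs N1 →L[ℝ] Fs N2) :
    ent N1 N2 i j L = mkm N1 N2 L i j := rfl

/-- the formula for `J2` -/
theorem J2m_apply (h : Cor N1 N2 B0 B1 g) (i j : n) : J2m N1 N2 B0 B1 i j =
    π⁻¹ * ∫ t in (0:ℝ)..π, (g t * Bm' B0 B1 t) i j := by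
  have h1 := (ent N1 N1 i j).intervalIntegral_comp_comm
    ((X1.continuous_gg h.nons).intervalIntegrable (μ := volume) 0 π)
  simp only [ent_apply, h.mk_gg] at h1
  rw [J2m, X1.J2, mkm_smul, Matrix.smul_apply, smul_eq_mul, h1]

/-- the formula for `J1` -/
theorem J1m_apply (h : Cor N1 N2 B0 B1 g) (i j : n) : J1m N1 N2 B0 B1 i j =
    π⁻¹ * ∫ t in (0:ℝ)..π, (Bm' B0 B1 t * g t) i j := by
  have h1 := (ent N2 N2 i j).intervalIntegral_comp_comm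
    ((X1.continuous_gg' h.nons).intervalIntegrable (μ := volume) 0 π)
  simp only [ent_apply, h.mk_gg'] at h1
  rw [J1m, X1.J1, mkm_smul, Matrix.smul_apply, smul_eq_mul, h1]

theorem J2_sq (h : Cor N1 N2 B0 B1 g) : J2m N1 N2 B0 B1 * J2m N1 N2 B0 B1 = -N1 := by
  rw [J2m, ← mkm_comp h.i1, X1.J2_sq h.nons, mkm_neg, mkm_id]

theorem J1_sq (h : Cor N1 N2 B0 B1 g) : J1m N1 N2 B0 B1 * J1m N1 N2 B0 B1 = -N2 := by
  rw [J1m, ← mkm_comp h.i2, X1.J1_sq h.nons, mkm_neg, mkm_id]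

theorem lJ2 (h : Cor N1 N2 B0 B1 g) : N1 * J2m N1 N2 B0 B1 = J2m N1 N2 B0 B1 := mul_mkm h.i1 _

theorem rJ2 (h : Cor N1 N2 B0 B1 g) : J2m N1 N2 B0 B1 * N1 = J2m N1 N2 B0 B1 := mkm_mul h.i1 _

theorem lJ1 (h : Cor N1 N2 B0 B1 g) : N2 * J1m N1 N2 B0 B1 = J1m N1 N2 B0 B1 := mul_mkm h.i2 _

theorem rJ1 (h : Cor N1 N2 B0 B1 g) : J1m N1 N2 B0 B1 * N2 = J1m N1 N2 B0 B1 := mkm_mul h.i2 _

theorem Tm_eq (h : Cor N1 N2 B0 B1 g) :
    Tm N1 N2 B0 B1 = mkm N1 N2 (X1.TT (cr N1 N2 B0) (cr N1 N2 B1)) := by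
  rw [X1.TT, mkm_sub, mkm_comp h.i1, mkm_cr h.r0 h.l0, mkm_cr h.r1 h.l1]
  rfl

theorem lT (h : Cor N1 N2 B0 B1 g) : N2 * Tm N1 N2 B0 B1 = Tm N1 N2 B0 B1 := by
  rw [h.Tm_eq, mul_mkm h.i2]

theorem rT (h : Cor N1 N2 B0 B1 g) : Tm N1 N2 B0 B1 * N1 = Tm N1 N2 B0 B1 := by
  rw [h.Tm_eq, mkm_mul h.i1]

theorem lS (h : Cor N1 N2 B0 B1 g) : N1 * Sm' N1 N2 B0 B1 = Sm' N1 N2 B0 B1 := mul_mkm h.i1 _

theorem rS (h : Cor N1 N2 B0 B1 g) : Sm' N1 N2 B0 B1 * N2 = Sm' N1 N2 B0 B1 := mkm_mul h.i2 _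

theorem T_J2 (h : Cor N1 N2 B0 B1 g) :
    Tm N1 N2 B0 B1 * J2m N1 N2 B0 B1 = J1m N1 N2 B0 B1 * Tm N1 N2 B0 B1 := by
  rw [h.Tm_eq, J2m, J1m, ← mkm_comp h.i1, ← mkm_comp h.i2, X1.TT_J2 h.nons]

theorem ST (h : Cor N1 N2 B0 B1 g) : Sm' N1 N2 B0 B1 * Tm N1 N2 B0 B1 = N1 := by
  rw [h.Tm_eq, Sm', ← mkm_comp h.i2, X1.inv_comp (X1.TT_isInvertible h.nons), mkm_id]

theorem TS (h : Cor N1 N2 B0 B1 g) : Tm N1 N2 B0 B1 * Sm' N1 N2 B0 B1 = N2 := by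
  rw [h.Tm_eq, Sm', ← mkm_comp h.i1, X1.comp_inv (X1.TT_isInvertible h.nons), mkm_id]

/-! ### rotation of the pencil -/

theorem J2_rot (h : Cor N1 N2 B0 B1 g) (s : ℝ) :
    J2m N1 N2 (Bm B0 B1 s) (Bm' B0 B1 s) = J2m N1 N2 B0 B1 := by
  rw [J2m, J2m, ← cr_Bt, ← cr_Bd, X1.J2_rot h.nons]

theorem J1_rot (h : Cor N1 N2 B0 B1 g) (s : ℝ) :
    J1m N1 N2 (Bm B0 B1 s) (Bm' B0 B1 s) = J1m N1 N2 B0 B1 := by
  rw [J1m, J1m, ← cr_Bt, ← cr_Bd, X1.J1_rot h.nons]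

/-- the rotated pencil -/
theorem rot (h : Cor N1 N2 B0 B1 g) (s : ℝ) :
    Cor N1 N2 (Bm B0 B1 s) (Bm' B0 B1 s) (fun t => g (s + t)) := by
  have h1 : ∀ t, Real.cos t • Bm B0 B1 s + Real.sin t • Bm' B0 B1 s =
      Real.cos (s + t) • B0 + Real.sin (s + t) • B1 := by
    intro t
    rw [Bm, Bm', Real.cos_add, Real.sin_add]
    module
  exact ⟨h.i1, h.i2, h.lB s, h.rB s, h.lB' s, h.rB' s, fun t => h.lg _, fun t => h.rg _,
    fun t => by rw [h1]; exact h.gb _, fun t => by rw [h1]; exact h.bg _⟩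

theorem T_rot (h : Cor N1 N2 B0 B1 g) (s : ℝ) : Tm N1 N2 (Bm B0 B1 s) (Bm' B0 B1 s) =
    Tm N1 N2 B0 B1 * (Real.cos s • N1 + Real.sin s • J2m N1 N2 B0 B1) := by
  rw [(h.rot s).Tm_eq, ← cr_Bt, ← cr_Bd, X1.TT_rot h.nons, mkm_comp h.i1, h.Tm_eq, mkm_add,
    mkm_smul, mkm_smul, mkm_id]
  rfl

theorem S_rot (h : Cor N1 N2 B0 B1 g) (s : ℝ) : Sm' N1 N2 (Bm B0 B1 s) (Bm' B0 B1 s) =
    (Real.cos s • N1 - Real.sin s • J2m N1 N2 B0 B1) * Sm' N1 N2 B0 B1 := by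
  set J := J2m N1 N2 B0 B1 with hJ
  set T := Tm N1 N2 B0 B1 with hT
  set S := Sm' N1 N2 B0 B1 with hS
  have h1 := (h.rot s).ST
  rw [h.T_rot] at h1
  have h2 : (Real.cos s • N1 + Real.sin s • J) * ((Real.cos s • N1 - Real.sin s • J) * S) = S := by
    rw [← Matrix.mul_assoc]
    have h3 : (Real.cos s • N1 + Real.sin s • J) * (Real.cos s • N1 - Real.sin s • J) = N1 := by
      rw [Matrix.mul_sub, Matrix.add_mul, Matrix.add_mul]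
      simp only [Matrix.smul_mul, Matrix.mul_smul, h.i1, h.J2_sq, h.lJ2, h.rJ2, hJ]
      have h4 := Real.sin_sq_add_cos_sq s
      have h5 : (Real.cos s * Real.cos s + Real.sin s * Real.sin s) = 1 := by nlinarith
      calc _ = (Real.cos s * Real.cos s + Real.sin s * Real.sin s) • N1 := by
            simp only [smul_smul, smul_neg]
            module
        _ = N1 := by rw [h5, one_smul]
    rw [h3, h.lS]
  calc Sm' N1 N2 (Bm B0 B1 s) (Bm' B0 B1 s)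
      = Sm' N1 N2 (Bm B0 B1 s) (Bm' B0 B1 s) * (T * S) := by rw [h.TS, (h.rot s).rS]
    _ = Sm' N1 N2 (Bm B0 B1 s) (Bm' B0 B1 s) * (T * (Real.cos s • N1 + Real.sin s • J)) *
        ((Real.cos s • N1 - Real.sin s • J) * S) := by
          conv_lhs => rw [← h2]
          simp only [Matrix.mul_assoc]
    _ = _ := by
      rw [h1, ← Matrix.mul_assoc, Matrix.mul_sub, Matrix.mul_smul, Matrix.mul_smul, h.i1, h.lJ2]

end Cor

/-! ### inverses between corners depend smoothly on the matrix -/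

theorem pinv {N1 N2 T S : Matrix n n ℝ} (i1 : N1 * N1 = N1) (t1 : N1ᵀ = N1) (t2 : N2ᵀ = N2)
    (h1 : T * N1 = T) (h3 : N1 * S = S) (h4 : S * N2 = S) (h5 : S * T = N1) (h6 : T * S = N2) :
    IsUnit (Tᵀ * T + (1 - N1)) ∧ S = (Tᵀ * T + (1 - N1))⁻¹ * Tᵀ := by
  have e1 : T * (1 - N1) = 0 := by rw [Matrix.mul_sub, Matrix.mul_one, h1, sub_self]
  have e2 : (1 - N1) * S = 0 := by rw [Matrix.sub_mul, Matrix.one_mul, h3, sub_self]
  have e3 : N2 * Sᵀ = Sᵀ := by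
    have := congrArg Matrix.transpose h4
    rwa [Matrix.transpose_mul, t2] at this
  have e4 : Tᵀ * Sᵀ = N1 := by
    have := congrArg Matrix.transpose h5
    rwa [Matrix.transpose_mul, t1] at this
  have e5 : (1 - N1) * (1 - N1) = 1 - N1 := by
    rw [Matrix.mul_sub, Matrix.mul_one, Matrix.sub_mul, Matrix.one_mul, i1, sub_self, sub_zero]
  have key : (Tᵀ * T + (1 - N1)) * (S * Sᵀ + (1 - N1)) = 1 := by
    calc (Tᵀ * T + (1 - N1)) * (S * Sᵀ + (1 - N1))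
        = Tᵀ * ((T * S) * Sᵀ) + Tᵀ * (T * (1 - N1)) + ((1 - N1) * S) * Sᵀ +
          (1 - N1) * (1 - N1) := by
          simp only [Matrix.mul_add, Matrix.add_mul, Matrix.mul_assoc]
          abel
      _ = 1 := by
        rw [h6, e3, e4, e1, e2, e5, Matrix.mul_zero, Matrix.zero_mul, add_zero, add_zero,
          add_sub_cancel]
  have hu : IsUnit (Tᵀ * T + (1 - N1)) :=
    ⟨⟨_, _, key, mul_eq_one_comm.1 key⟩, rfl⟩
  refine ⟨hu, ?_⟩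
  rw [Matrix.inv_eq_right_inv key, Matrix.add_mul, Matrix.mul_assoc, ← Matrix.transpose_mul, h6,
    t2, h4, Matrix.sub_mul, Matrix.one_mul]
  have e6 : N1 * Tᵀ = Tᵀ := by
    have := congrArg Matrix.transpose h1
    rwa [Matrix.transpose_mul, t1] at this
  rw [e6, sub_self, add_zero]

end

end Vale.Agent.P231.X3
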