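import Vale.Agent.P231.X3.SF
import Vale.Agent.P231.X3.Frame
import Vale.Agent.P231.WR.Proj

/-!
# P231, stage 2, block X3 (part 3): matrices of operators between tangent spaces
-/

set_option maxSynthPendingDepth 3
set_option linter.unusedSectionVars false
set_option linter.unusedVariables false

open Bundle Manifold Set Filter Module Matrix
open scoped ContDiff Manifold Topology

namespace Vale.Agent.P231.X3

noncomputable section

open Vale.Agent.P234 Vale.Agent.P231 Vale.Agent.P231.Fm Vale.Agent.P231.W Vale.Agent.P231.WR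

variable {E : Type*} [NormedAddCommGroup E] [NormedSpace ℝ E] [FiniteDimensional ℝ E]
  {M : Type*} [MetricSpace M] [ChartedSpace E M] [IsManifold 𝓘(ℝ, E) ∞ M]
  [RiemannianBundle (fun x : M => TangentSpace 𝓘(ℝ, E) x)]
  [IsContMDiffRiemannianBundle 𝓘(ℝ, E) ∞ E (fun x : M => TangentSpace 𝓘(ℝ, E) x)]
  {K : ℕ}

/-! ### coordinates -/

/-- the frame fields as raw vectors -/
def PF.v (P : PF E M K) (i : Fin K) (x : M) : E := P.X i x

/-- the coordinates of a tangent vector in a Parseval frame -/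
def PF.em (P : PF E M K) (x : M) (a : E) (i : Fin K) : ℝ := ip x (P.v i x) a

theorem PF.em_add (P : PF E M K) (x : M) (a b : E) : P.em x (a + b) = P.em x a + P.em x b :=
  funext fun i => ip_add_right' x _ a b

theorem PF.em_smul (P : PF E M K) (x : M) (c : ℝ) (a : E) : P.em x (c • a) = c • P.em x a :=
  funext fun i => ip_smul_right' x c _ a

theorem PF.sum_em (P : PF E M K) (x : M) (a : E) : ∑ i, P.em x a i • P.v i x = a :=
  P.parseval x a

theorem PF.ip_eq (P : PF E M K) (x : M) (a b : E) : ip x a b = ∑ i, P.em x a i * P.em x b i := by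
  conv_lhs => rw [← P.sum_em x a]
  rw [ip_sum_left]
  exact Finset.sum_congr rfl fun i _ => ip_smul_left' x _ _ _

theorem PF.em_injective (P : PF E M K) (x : M) {a b : E} (h : P.em x a = P.em x b) : a = b := by
  rw [← P.sum_em x a, ← P.sum_em x b, h]

/-- the matrix of an operator between tangent spaces -/
def PF.mat (P : PF E M K) (x y : M) (A : E →ₗ[ℝ] E) : Matrix (Fin K) (Fin K) ℝ :=
  fun i j => ip y (P.v i y) (A (P.v j x))

theorem PF.mat_mul (P : PF E M K) (x y z : M) (A B : E →ₗ[ℝ] E) :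
    P.mat y z B * P.mat x y A = P.mat x z (B ∘ₗ A) := by
  ext i k
  rw [Matrix.mul_apply]
  simp only [PF.mat]
  have h1 : A (P.v k x) = ∑ j, P.em y (A (P.v k x)) j • P.v j y :=
    (P.sum_em y _).symm
  rw [LinearMap.comp_apply]
  conv_rhs => rw [h1]
  rw [map_sum, ip_sum_right]
  refine Finset.sum_congr rfl fun j _ => ?_
  rw [map_smul, ip_smul_right', mul_comm]
  rfl

theorem PF.mat_add (P : PF E M K) (x y : M) (A B : E →ₗ[ℝ] E) :
    P.mat x y (A + B) = P.mat x y A + P.mat x y B := by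
  ext i j
  exact ip_add_right' y _ _ _

theorem PF.mat_sub (P : PF E M K) (x y : M) (A B : E →ₗ[ℝ] E) :
    P.mat x y (A - B) = P.mat x y A - P.mat x y B := by
  ext i j
  exact ip_sub_right' y _ _ _

theorem PF.mat_smul (P : PF E M K) (x y : M) (c : ℝ) (A : E →ₗ[ℝ] E) :
    P.mat x y (c • A) = c • P.mat x y A := by
  ext i j
  exact ip_smul_right' y _ _ _

theorem PF.mat_zero (P : PF E M K) (x y : M) : P.mat x y 0 = 0 := by
  have h := P.mat_smul x y 0 0
  rwa [zero_smul, zero_smul] at h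

theorem PF.mat_transpose (P : PF E M K) (x y : M) {A A' : E →ₗ[ℝ] E}
    (h : ∀ a b, ip y (A a) b = ip x a (A' b)) : (P.mat x y A)ᵀ = P.mat y x A' := by
  ext i j
  simp only [PF.mat, Matrix.transpose_apply]
  rw [ip_comm', h]

theorem PF.mat_mulVec (P : PF E M K) (x y : M) (A : E →ₗ[ℝ] E) (a : E) :
    P.mat x y A *ᵥ P.em x a = P.em y (A a) := by
  ext i
  simp only [PF.mat, Matrix.mulVec, dotProduct]
  have h1 : ∑ j, ip y (P.v i y) (A (P.v j x)) * P.em x a j =
      ip y (P.v i y) (A (∑ j, P.em x a j • P.v j x)) := by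
    rw [map_sum, ip_sum_right]
    refine Finset.sum_congr rfl fun j _ => ?_
    rw [map_smul, ip_smul_right', mul_comm]
  rw [h1, P.sum_em]
  rfl

theorem PF.mat_injective (P : PF E M K) (x y : M) {A B : E →ₗ[ℝ] E}
    (h : P.mat x y A = P.mat x y B) : A = B := by
  ext a
  refine P.em_injective y ?_
  rw [← P.mat_mulVec x y A, ← P.mat_mulVec x y B, h]

/-- the projector of a tangent space -/
def PF.tm (P : PF E M K) (x : M) : Matrix (Fin K) (Fin K) ℝ := P.mat x x LinearMap.id

theorem PF.tm_apply (P : PF E M K) (x : M) (i j : Fin K) :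
    P.tm x i j = ip x (P.v i x) (P.v j x) := rfl

theorem PF.tm_transpose (P : PF E M K) (x : M) : (P.tm x)ᵀ = P.tm x :=
  P.mat_transpose x x fun a b => rfl

theorem PF.tm_mul (P : PF E M K) (x y : M) (A : E →ₗ[ℝ] E) :
    P.tm y * P.mat x y A = P.mat x y A := P.mat_mul x y y A LinearMap.id

theorem PF.mul_tm (P : PF E M K) (x y : M) (A : E →ₗ[ℝ] E) :
    P.mat x y A * P.tm x = P.mat x y A := P.mat_mul x x y LinearMap.id A

theorem PF.tm_idem (P : PF E M K) (x : M) : P.tm x * P.tm x = P.tm x := P.tm_mul x x _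

/-- the trace of the matrix of an operator -/
theorem PF.trace_mat (P : PF E M K) (x : M) (A : E →ₗ[ℝ] E) :
    trace (P.mat x x A) = LinearMap.trace ℝ E A := by
  classical
  -- `E → ℝ^K → E`
  let j : E →ₗ[ℝ] (Fin K → ℝ) :=
    { toFun := P.em x
      map_add' := P.em_add x
      map_smul' := P.em_smul x }
  let q : (Fin K → ℝ) →ₗ[ℝ] E :=
    { toFun := fun c => ∑ i, c i • P.v i x
      map_add' := fun c d => by
        rw [← Finset.sum_add_distrib]
        exact Finset.sum_congr rfl fun i _ => add_smul _ _ _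
      map_smul' := fun r c => by
        rw [RingHom.id_apply, Finset.smul_sum]
        exact Finset.sum_congr rfl fun i _ => by rw [Pi.smul_apply, smul_assoc] }
  have hqj : q ∘ₗ j = LinearMap.id := LinearMap.ext fun a => P.sum_em x a
  have h1 : LinearMap.trace ℝ E A = LinearMap.trace ℝ (Fin K → ℝ) (j ∘ₗ A ∘ₗ q) := by
    rw [LinearMap.trace_comp_comm', LinearMap.comp_assoc, hqj, LinearMap.comp_id]
  rw [h1, LinearMap.trace_eq_matrix_trace ℝ (Pi.basisFun ℝ (Fin K)), LinearMap.toMatrix_eq_toMatrix']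
  congr 1
  ext i k
  rw [LinearMap.toMatrix'_apply]
  have h2 : q (Pi.single k 1) = (P.v k x) := by
    change ∑ i, (Pi.single k (1 : ℝ) : Fin K → ℝ) i • P.v i x = _
    rw [Finset.sum_eq_single k]
    · rw [Pi.single_eq_same, one_smul]
    · intro i _ hi
      rw [Pi.single_eq_of_ne hi, zero_smul]
    · intro h
      exact absurd (Finset.mem_univ k) h
  change _ = P.em x (A (q (Pi.single k 1))) i
  rw [h2]
  rfl

/-! ### smoothness -/

section Smooth

variable {Z : Type*} {dZ : Dif Z}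

theorem PF.at_X (P : PF E M K) {E' : Type} [NormedAddCommGroup E'] [NormedSpace ℝ E']
    [FiniteDimensional ℝ E'] {u : E' → M} {x : E'} (hu : (dM E M).At u x) (i : Fin K) :
    (dTM E M).At (fun s => tb (u s) (P.v i (u s))) x := by
  filter_upwards [hu] with s hs
  have h1 : ContMDiffAt 𝓘(ℝ, E) (𝓘(ℝ, E).prod 𝓘(ℝ, E)) ∞
      (fun x => TotalSpace.mk' E x (P.X i x)) (u s) := P.smooth i (u s)
  exact ContMDiffAt.comp s h1 hs

/-- inner products of raw fields along a map are smooth -/
theorem sm_ip_fields {E' : Type} [NormedAddCommGroup E'] [NormedSpace ℝ E']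
    [FiniteDimensional ℝ E'] {f : E' → M} {a b : E' → E} {x : E'}
    (ha : (dTM E M).At (fun s => tb (f s) (a s)) x)
    (hb : (dTM E M).At (fun s => tb (f s) (b s)) x) :
    Sm (fun s => ip (f s) (a s) (b s)) x := by
  filter_upwards [ha, hb] with s g1 g2
  have h1 : H775.SmV (E := E) f (fun s => a s) s := g1
  have h2 : H775.SmV (E := E) f (fun s => b s) s := g2
  exact h1.inner h2

theorem at_base {E' : Type} [NormedAddCommGroup E'] [NormedSpace ℝ E']
    [FiniteDimensional ℝ E'] {f : E' → M} {a : E' → E} {x : E'}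
    (ha : (dTM E M).At (fun s => tb (f s) (a s)) x) : (dM E M).At f x := by
  filter_upwards [ha] with s g1
  have h1 : H775.SmV (E := E) f (fun s => a s) s := g1
  exact h1.base

/-- raw fields given by smooth coordinates in a Parseval frame are smooth -/
theorem PF.at_sum (P : PF E M K) {E' : Type} [NormedAddCommGroup E'] [NormedSpace ℝ E']
    [FiniteDimensional ℝ E'] {f : E' → M} {c : E' → Fin K → ℝ} {x : E'}
    (hf : (dM E M).At f x) (hc : ∀ i, Sm (fun s => c s i) x) :
    (dTM E M).At (fun s => tb (f s) (∑ i, c s i • P.v i (f s))) x := by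
  have h1 : ∀ᶠ s in 𝓝 x, ∀ i, H775.SmV (E := E) f (fun s => (P.v i (f s) : E)) s :=
    eventually_all.2 fun i => P.at_X hf i
  have h2 : ∀ᶠ s in 𝓝 x, ∀ i, ContDiffAt ℝ ∞ (fun s => c s i) s :=
    eventually_all.2 fun i => hc i
  filter_upwards [h1, h2, hf] with s g1 g2 g3
  exact H775.SmV.sum Finset.univ g3 fun i _ => H775.SmV.smul (g2 i) (g1 i)

/-- smooth families of operators between tangent spaces -/
structure SmOp (dZ : Dif Z) (f g : Z → M) (A : Z → E →ₗ[ℝ] E) : Prop where
  /-- smooth fields are mapped to smooth fields -/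
  at' : ∀ {E' : Type} [NormedAddCommGroup E'] [NormedSpace ℝ E'] [FiniteDimensional ℝ E']
    {u : E' → Z} {x : E'} {a : E' → E}, dZ.At u x →
    (dTM E M).At (fun s => tb (f (u s)) (a s)) x →
    (dTM E M).At (fun s => tb (g (u s)) (A (u s) (a s))) x

theorem PF.smM_mat (P : PF E M K) {f g : Z → M} {A : Z → E →ₗ[ℝ] E}
    (hf : dZ.Map (dM E M) f) (hA : SmOp dZ f g A) :
    SmM dZ (fun z => P.mat (f z) (g z) (A z)) := by
  intro i j
  refine SmF.of ?_
  intro E' _ _ _ u x hu
  have h1 := hA.at' hu (P.at_X (hf hu) j)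
  have h2 := P.at_X (at_base h1) i
  exact sm_ip_fields h2 h1

theorem PF.smM_tm (P : PF E M K) {f : Z → M} (hf : dZ.Map (dM E M) f) :
    SmM dZ (fun z => P.tm (f z)) :=
  P.smM_mat (g := f) hf ⟨fun _ h => h⟩

/-- the coordinates of a smooth field are smooth -/
theorem PF.sm_em (P : PF E M K) {E' : Type} [NormedAddCommGroup E'] [NormedSpace ℝ E']
    [FiniteDimensional ℝ E'] {f : E' → M} {a : E' → E} {x : E'}
    (ha : (dTM E M).At (fun s => tb (f s) (a s)) x) (i : Fin K) :
    Sm (fun s => P.em (f s) (a s) i) x :=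
  sm_ip_fields (P.at_X (at_base ha) i) ha

/-- conversely, smooth matrices give smooth families of operators -/
theorem PF.smOp_of_mat (P : PF E M K) {f g : Z → M} {A : Z → E →ₗ[ℝ] E}
    (hg : dZ.Map (dM E M) g) (hA : SmM dZ (fun z => P.mat (f z) (g z) (A z))) :
    SmOp dZ f g A := by
  refine ⟨?_⟩
  intro E' _ _ _ u x a hu ha
  have h1 : ∀ i, Sm (fun s => P.em (g (u s)) (A (u s) (a s)) i) x := by
    intro i
    have h2 : ∀ j, Sm (fun s => P.mat (f (u s)) (g (u s)) (A (u s)) i j *
        P.em (f (u s)) (a s) j) x := by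
      intro j
      filter_upwards [(hA i j).sm hu, P.sm_em ha j] with s k1 k2 using k1.mul k2
    have h3 : ∀ᶠ s in 𝓝 x, ∀ j, ContDiffAt ℝ ∞ (fun s => P.mat (f (u s)) (g (u s)) (A (u s)) i j *
        P.em (f (u s)) (a s) j) s := eventually_all.2 h2
    filter_upwards [h3] with s k3
    have h4 : ContDiffAt ℝ ∞ (fun s => ∑ j, P.mat (f (u s)) (g (u s)) (A (u s)) i j *
        P.em (f (u s)) (a s) j) s := ContDiffAt.sum fun j _ => k3 j
    refine h4.congr_of_eventuallyEq (Eventually.of_forall fun s' => ?_)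
    exact (congrFun (P.mat_mulVec (f (u s')) (g (u s')) (A (u s')) (a s')) i).symm
  have h5 := P.at_sum (hg hu) h1
  refine (dTM E M).congr h5 (Eventually.of_forall fun s => ?_)
  exact tb_congr rfl (P.sum_em _ _)

theorem SmOp.id (dZ : Dif Z) (f : Z → M) : SmOp dZ f f (fun _ => (LinearMap.id : E →ₗ[ℝ] E)) :=
  ⟨fun _ h => h⟩

theorem SmOp.comp {f g h : Z → M} {A B : Z → E →ₗ[ℝ] E} (hB : SmOp dZ g h B)
    (hA : SmOp dZ f g A) : SmOp dZ f h (fun z => B z ∘ₗ A z) :=
  ⟨fun hu ha => hB.at' hu (hA.at' hu ha)⟩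

end Smooth

end

end Vale.Agent.P231.X3
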